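import Crest.Agent.X212.Prf6.Defs
import Crest.Agent.X212.Cut44.Slide
import Crest.Agent.X212.Prf6.Bas

-- ▼ part X212/Mor94/Bas
section

/-!
# Row 212, PERF-MORSE (helper94): charts on open subsets of `ℂ`, push-forward of fields and functions
-/

set_option autoImplicit false
set_option linter.unusedSectionVars false
noncomputable section
open Set Filter Topology Function
open scoped ContDiff Manifold

namespace Crest.Agent.X212.Mor94
open Prf6 Flo26

variable {M : Type*} [TopologicalSpace M] [ChartedSpace ℂ M]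

/-- an injective local diffeomorphism on the open set `U` -/
structure Ch (Q : ℂ → M) (U : Set ℂ) : Prop where
  op : IsOpen U
  ld : ∀ z ∈ U, IsLocalDiffeomorphAt IC IC ∞ Q z
  inj : InjOn Q U

/-- the differential of a chart -/
def dQ (Q : ℂ → M) (z w : ℂ) : TangentSpace IC (Q z) := mfderiv IC IC Q z w

/-- the differential of a function -/
def df (f : M → ℝ) (x : M) : TangentSpace IC x →L[ℝ] ℝ := mfderiv IC IR f x

theorem dQ_add (Q : ℂ → M) (z w w' : ℂ) : dQ Q z (w + w') = dQ Q z w + dQ Q z w' :=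
  (mfderiv IC IC Q z).map_add w w'

theorem dQ_zero (Q : ℂ → M) (z : ℂ) : dQ Q z 0 = 0 := (mfderiv IC IC Q z).map_zero

namespace Ch
variable {Q : ℂ → M} {U V : Set ℂ} {z : ℂ}

theorem mono (h : Ch Q U) (hV : IsOpen V) (hVU : V ⊆ U) : Ch Q V :=
  ⟨hV, fun z hz => h.ld z (hVU hz), h.inj.mono hVU⟩

theorem smAt (h : Ch Q U) (hz : z ∈ U) : ContMDiffAt IC IC ∞ Q z := (h.ld z hz).contMDiffAt

theorem mdAt (h : Ch Q U) (hz : z ∈ U) : MDifferentiableAt IC IC Q z :=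
  (h.smAt hz).mdifferentiableAt (by simp)

theorem smOn (h : Ch Q U) : ContMDiffOn IC IC ∞ Q U := fun _ hz => (h.smAt hz).contMDiffWithinAt

theorem contOn (h : Ch Q U) : ContinuousOn Q U := h.smOn.continuousOn

theorem image_nhds (h : Ch Q U) (hz : z ∈ U) (hV : V ∈ 𝓝 z) : Q '' V ∈ 𝓝 (Q z) := by
  have h0 := h.ld z hz
  have h1 : h0.localInverse (Q z) = z := h0.localInverse_left_inv h0.localInverse_mem_target
  have h2 : ∀ᶠ y in 𝓝 (Q z), h0.localInverse y ∈ V :=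
    h0.localInverse_contMDiffAt.continuousAt.eventually (by rw [h1]; exact hV)
  filter_upwards [h2, h0.localInverse_eventuallyEq_right] with y hy hy'
  exact ⟨_, hy, hy'⟩

theorem isOpen_image (h : Ch Q U) (hV : IsOpen V) (hVU : V ⊆ U) : IsOpen (Q '' V) := by
  rw [isOpen_iff_mem_nhds]
  rintro _ ⟨z, hz, rfl⟩
  exact h.image_nhds (hVU hz) (hV.mem_nhds hz)

theorem isCompact_image (h : Ch Q U) (hV : IsCompact V) (hVU : V ⊆ U) : IsCompact (Q '' V) :=
  hV.image_of_continuousOn (h.contOn.mono hVU)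

theorem iv_apply (h : Ch Q U) (hz : z ∈ U) : invFunOn Q U (Q z) = z := h.inj.leftInvOn_invFunOn hz

theorem iv_sm (h : Ch Q U) (hz : z ∈ U) : ContMDiffAt IC IC ∞ (invFunOn Q U) (Q z) := by
  refine Cyl58.contMDiffAt_of_comp (h.ld z hz) (contMDiffAt_id.congr_of_eventuallyEq ?_)
  filter_upwards [h.op.mem_nhds hz] with w hw using h.iv_apply hw

/-- chain rule -/
theorem df_dQ (h : Ch Q U) (hz : z ∈ U) {f : M → ℝ} (hf : MDifferentiableAt IC IR f (Q z)) (w : ℂ) :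
    df f (Q z) (dQ Q z w) = fderiv ℝ (f ∘ Q) z w := by
  rw [← mfderiv_eq_fderiv, mfderiv_comp z hf (h.mdAt hz)]
  rfl

theorem dQ_surj (h : Ch Q U) (hz : z ∈ U) (u : TangentSpace IC (Q z)) : ∃ w, dQ Q z w = u :=
  ((h.ld z hz).mfderivToContinuousLinearEquiv (by simp)).surjective u

theorem df_eq_zero (h : Ch Q U) (hz : z ∈ U) {f : M → ℝ} (hf : MDifferentiableAt IC IR f (Q z)) :
    df f (Q z) = 0 ↔ fderiv ℝ (f ∘ Q) z = 0 := by
  constructor
  · intro h0
    ext1 w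
    rw [← h.df_dQ hz hf, h0]; rfl
  · intro h0
    ext1 u
    obtain ⟨w, rfl⟩ := h.dQ_surj hz u
    rw [h.df_dQ hz hf, h0]; rfl

theorem comp_sm (h : Ch Q U) (hz : z ∈ U) {f : M → ℝ} (hf : ContMDiff IC IR ∞ f) :
    ContDiffAt ℝ ∞ (f ∘ Q) z := contMDiffAt_iff_contDiffAt.1 ((hf _).comp z (h.smAt hz))

/-- push-forward of a function with compact support -/
theorem exists_fun [T2Space M] (h : Ch Q U) {g : ℂ → ℝ} (hg : ContDiffOn ℝ ∞ g U) {K : Set ℂ}
    (hK : IsCompact K) (hKU : K ⊆ U) (h0 : ∀ z ∈ U, z ∉ K → g z = 0) :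
    ∃ G : M → ℝ, ContMDiff IC IR ∞ G ∧ (∀ z ∈ U, G (Q z) = g z) ∧ ∀ y ∉ Q '' K, G y = 0 := by
  classical
  let G : M → ℝ := fun y => if y ∈ Q '' U then g (invFunOn Q U y) else 0
  have h1 : ∀ z ∈ U, G (Q z) = g z := fun z hz => by
    simp only [G, if_pos (mem_image_of_mem Q hz), h.iv_apply hz]
  have h2 : ∀ y ∉ Q '' K, G y = 0 := fun y hy => by
    by_cases hU : y ∈ Q '' U
    · obtain ⟨z, hz, rfl⟩ := hU
      rw [h1 z hz, h0 z hz fun hk => hy ⟨z, hk, rfl⟩]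
    · exact if_neg hU
  refine ⟨G, fun y => ?_, h1, h2⟩
  by_cases hy : y ∈ Q '' K
  · obtain ⟨z, hz, rfl⟩ := hy
    refine Cyl58.contMDiffAt_of_comp (h.ld z (hKU hz)) ?_
    refine (contMDiffAt_iff_contDiffAt.2
      (hg.contDiffAt (h.op.mem_nhds (hKU hz)))).congr_of_eventuallyEq ?_
    filter_upwards [h.op.mem_nhds (hKU hz)] with w hw using h1 w hw
  · refine (contMDiffAt_const (c := (0 : ℝ))).congr_of_eventuallyEq ?_
    filter_upwards [(h.isCompact_image hK hKU).isClosed.isOpen_compl.mem_nhds hy] with w hw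
    exact h2 w hw

variable [IsManifold IC ∞ M]

/-- push-forward of a field -/
theorem exists_vec (h : Ch Q U) {W : ℂ → ℂ} (hW : ContDiff ℝ ∞ W) :
    ∃ V : (y : M) → TangentSpace IC y,
      ContMDiffOn IC IC.tangent ∞ (fun y => (⟨y, V y⟩ : TangentBundle IC M)) (Q '' U) ∧
      (∀ z ∈ U, V (Q z) = dQ Q z (W z)) ∧ ∀ y ∉ Q '' U, V y = 0 := by
  classical
  let V : (y : M) → TangentSpace IC y := fun y =>
    if y ∈ Q '' U then (dQ Q (invFunOn Q U y) (W (invFunOn Q U y)) : ℂ) else 0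
  have h1 : ∀ z ∈ U, V (Q z) = dQ Q z (W z) := fun z hz =>
    (if_pos (mem_image_of_mem Q hz)).trans
      (congrArg (fun w => (dQ Q w (W w) : ℂ)) (h.iv_apply hz))
  refine ⟨V, ?_, h1, fun y hy => if_neg hy⟩
  rintro _ ⟨z, hz, rfl⟩
  refine (Cyl58.contMDiffAt_of_comp (h.ld z hz) ?_).contMDiffWithinAt
  have h2 := h.smOn.contMDiffOn_tangentMapWithin (m := ∞) (by simp) h.op.uniqueMDiffOn
  have h3 : SmV IC (M := ℂ) W := smV_model.2 hW
  have h4 := (h2.comp (s := U) h3.contMDiffOn fun w hw => hw).contMDiffAt (h.op.mem_nhds hz)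
  refine h4.congr_of_eventuallyEq ?_
  filter_upwards [h.op.mem_nhds hz] with w hw
  simp only [comp, tangentMapWithin, h1 w hw, dQ]
  rw [mfderivWithin_of_isOpen h.op hw]

/-- push-forward of a field with compact support -/
theorem exists_smV [T2Space M] (h : Ch Q U) {W : ℂ → ℂ} (hW : ContDiff ℝ ∞ W) {K : Set ℂ}
    (hK : IsCompact K) (hKU : K ⊆ U) (h0 : ∀ z ∉ K, W z = 0) :
    ∃ V : (y : M) → TangentSpace IC y, SmV IC V ∧
      (∀ z ∈ U, V (Q z) = dQ Q z (W z)) ∧ ∀ y ∉ Q '' K, V y = 0 := by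
  obtain ⟨V, h1, h2, h3⟩ := h.exists_vec hW
  have h4 : ∀ y ∉ Q '' K, V y = 0 := fun y hy => by
    by_cases hU : y ∈ Q '' U
    · obtain ⟨z, hz, rfl⟩ := hU
      rw [h2 z hz, h0 z fun hk => hy ⟨z, hk, rfl⟩, dQ_zero]
    · exact h3 y hU
  refine ⟨V, fun y => ?_, h2, h4⟩
  by_cases hy : y ∈ Q '' K
  · exact h1.contMDiffAt ((h.isOpen_image h.op subset_rfl).mem_nhds (image_mono hKU hy))
  · refine (SmV.zero (I := IC) y).congr_of_eventuallyEq ?_
    filter_upwards [(h.isCompact_image hK hKU).isClosed.isOpen_compl.mem_nhds hy] with w hw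
    rw [h4 w hw]

set_option backward.isDefEq.respectTransparency false in
/-- integral curves in a chart -/
theorem fl_curve [T2Space M] (h : Ch Q U) {v : (y : M) → TangentSpace IC y} (hv : SmV IC v)
    {W : ℂ → ℂ} (hW : ∀ z ∈ U, v (Q z) = dQ Q z (W z)) {g : ℝ → ℂ}
    (hg : ∀ s, HasDerivAt g (W (g s)) s) {T : ℝ} (hT : ∀ s ∈ uIcc 0 T, g s ∈ U) :
    fl v T (Q (g 0)) = Q (g T) := by
  refine (fl_of_curve hv (γ := fun s => Q (g s)) (T := T) fun s hs => ?_).2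
  filter_upwards [(hg s).continuousAt.preimage_mem_nhds (h.op.mem_nhds (hT s hs))] with r hr
  rw [hW _ hr]
  have h1 : HasMFDerivAt IR IC g r ((1 : ℝ →L[ℝ] ℝ).smulRight (W (g r))) :=
    hasMFDerivAt_iff_hasFDerivAt.2 (hg r).hasFDerivAt
  refine ((h.mdAt hr).hasMFDerivAt.comp r h1).congr_mfderiv ?_
  ext
  simp [dQ]

end Ch

/-- rescaling of a chart -/
theorem dQ_scale {Q : ℂ → M} {l : ℝ} {z : ℂ} (h : MDifferentiableAt IC IC Q (l • z)) (w : ℂ) :
    (dQ (fun u => Q (l • u)) z w : ℂ) = dQ Q (l • z) (l • w) := by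
  have h1 : HasMFDerivAt IC IC (fun u : ℂ => l • u) z (l • ContinuousLinearMap.id ℝ ℂ) :=
    hasMFDerivAt_iff_hasFDerivAt.2 ((hasFDerivAt_id z).const_smul l)
  have h2 := (h.hasMFDerivAt.comp z h1).mfderiv
  exact DFunLike.congr_fun h2 w

/-- a linear isomorphism with positive determinant is positive -/
theorem pm_lin (T : ℂ ≃L[ℝ] ℂ) (hT : 0 < (T : ℂ →L[ℝ] ℂ).det) (z : ℂ) : Pm oC oC T z := by
  refine ⟨Glue52.ld_clm T z, ?_⟩
  have : dt (T : ℂ → ℂ) z = (T : ℂ →L[ℝ] ℂ).det := by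
    unfold dt
    rw [mfderiv_eq_fderiv, T.fderiv]
  rw [this]
  simpa [oC] using hT

theorem pm_scale {l : ℝ} (hl : l ≠ 0) (z : ℂ) : Pm oC oC (fun u : ℂ => l • u) z := by
  let T : ℂ ≃L[ℝ] ℂ := ContinuousLinearEquiv.smulLeft (Units.mk0 l hl)
  refine pm_lin T ?_ z
  have : (T : ℂ →L[ℝ] ℂ) = l • ContinuousLinearMap.id ℝ ℂ := by ext <;> simp [T]
  rw [this, ContinuousLinearMap.det]
  have h2 : ((l • ContinuousLinearMap.id ℝ ℂ : ℂ →L[ℝ] ℂ) : ℂ →ₗ[ℝ] ℂ) = l • LinearMap.id := rfl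
  rw [h2, LinearMap.det_smul, Complex.finrank_real_complex, LinearMap.det_id, mul_one]
  positivity

end Crest.Agent.X212.Mor94
end
end

-- ▼ part X212/Mor94/Dyn
section

/-!
# Row 212, PERF-MORSE (helper94): dynamics of a gradient-like field `Mo`

`f` grows along orbits; the stable (unstable) set of a saddle consists of the saddle and of the two
orbits through `Q q (± i / 2)` (`Q p (± 1 / 2)`).
-/

set_option autoImplicit false
set_option linter.unusedSectionVars false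
noncomputable section
open Set Filter Topology Function Metric
open scoped ContDiff Manifold

namespace Crest.Agent.X212.Mor94
open Prf6 Flo26

theorem norm_lt_iff {z : ℂ} {r : ℝ} (hr : 0 < r) : ‖z‖ < r ↔ z.re ^ 2 + z.im ^ 2 < r ^ 2 := by
  rw [← sq_lt_sq₀ (norm_nonneg z) hr.le, Complex.sq_norm, Complex.normSq_apply]
  ring_nf

/-- abstract stable manifold lemma for a flow that is linear hyperbolic in a chart -/
theorem trap {M : Type*} [TopologicalSpace M] {F : ℝ → M → M} {Q : ℝ → ℝ → M}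
    (hadd : ∀ s t x, F (s + t) x = F s (F t x)) (h0 : ∀ x, F 0 x = x)
    (hlin : ∀ u w T, (∀ s ∈ uIcc 0 T, (u * Real.exp s) ^ 2 + (w * Real.exp (-s)) ^ 2 < 1) →
      F T (Q u w) = Q (u * Real.exp T) (w * Real.exp (-T)))
    (hinj : ∀ u w u' w', u ^ 2 + w ^ 2 < 1 → u' ^ 2 + w' ^ 2 < 1 → Q u w = Q u' w' → u = u')
    (hn : {y | ∃ u w, u ^ 2 + w ^ 2 < (1 / 2) ^ 2 ∧ Q u w = y} ∈ 𝓝 (Q 0 0)) {x : M}
    (hx : Tendsto (fun t => F t x) atTop (𝓝 (Q 0 0))) :
    x = Q 0 0 ∨ ∃ σ : ℝ, (σ = 1 ∨ σ = -1) ∧ ∃ t, F t (Q 0 (σ / 2)) = x := by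
  obtain ⟨T, hT⟩ := eventually_atTop.1 (hx.eventually hn)
  obtain ⟨u, w, huw, he⟩ := hT T le_rfl
  have hback : ∀ y, F T x = y → F (-T) y = x := fun y hy => by
    rw [← hy, ← hadd, neg_add_cancel, h0]
  have hw : ∀ s, 0 ≤ s → (w * Real.exp (-s)) ^ 2 ≤ 1 / 4 := fun s hs => by
    have h1 : Real.exp (-s) ≤ 1 := Real.exp_le_one_iff.2 (by linarith)
    have h2 := Real.exp_pos (-s)
    have h3 : Real.exp (-s) ^ 2 ≤ 1 := by nlinarith
    rw [mul_pow]
    nlinarith [sq_nonneg u, sq_nonneg w]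
  have hu : u = 0 := by
    by_contra hu
    have ha : 0 < |u| := abs_pos.2 hu
    have hb : |u| < 1 / 2 := abs_lt_of_sq_lt_sq (by nlinarith [sq_nonneg w]) (by norm_num)
    set S := Real.log (3 / 4 / |u|) with hS
    have hS0 : 0 ≤ S := Real.log_nonneg (by rw [le_div_iff₀ ha]; linarith)
    have hE : Real.exp S = 3 / 4 / |u| := Real.exp_log (by positivity)
    have hE2 : (u * Real.exp S) ^ 2 = 9 / 16 := by
      rw [hE, mul_pow, ← sq_abs u]; field_simp; norm_num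
    have h1 := hlin u w S fun s hs => by
      rw [uIcc_of_le hS0] at hs
      have h2 : Real.exp s ≤ Real.exp S := Real.exp_le_exp.2 hs.2
      have h3 : (u * Real.exp s) ^ 2 ≤ (u * Real.exp S) ^ 2 := by
        rw [mul_pow, mul_pow]
        exact mul_le_mul_of_nonneg_left (pow_le_pow_left₀ (Real.exp_pos s).le h2 2) (sq_nonneg u)
      linarith [hw s hs.1]
    obtain ⟨u', w', huw', he'⟩ := hT (S + T) (by linarith)
    rw [hadd, ← he, h1] at he'
    have h4 := hinj _ _ _ _ (by linarith) (by linarith [hw S hS0]) he'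
    rw [h4] at huw'
    nlinarith [sq_nonneg w']
  subst hu
  by_cases hw0 : w = 0
  · left
    subst hw0
    rw [← hback _ he.symm, hlin 0 0 (-T) (fun s _ => by simp)]
    simp
  right
  have ha : 0 < |w| := abs_pos.2 hw0
  have hb : |w| < 1 / 2 := abs_lt_of_sq_lt_sq (by nlinarith) (by norm_num)
  set S := -Real.log (2 * |w|) with hS
  have hS0 : 0 ≤ S := neg_nonneg.2 (Real.log_nonpos (by positivity) (by linarith))
  have hE : Real.exp (-S) = 2 * |w| := by rw [hS, neg_neg]; exact Real.exp_log (by positivity)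
  obtain ⟨σ, hσ, hσw⟩ : ∃ σ : ℝ, (σ = 1 ∨ σ = -1) ∧ σ * |w| = w := by
    rcases le_total 0 w with h | h
    · exact ⟨1, Or.inl rfl, by rw [abs_of_nonneg h, one_mul]⟩
    · exact ⟨-1, Or.inr rfl, by rw [abs_of_nonpos h]; ring⟩
  refine ⟨σ, hσ, -T + S, ?_⟩
  rw [hadd, hlin 0 (σ / 2) S fun s hs => ?_]
  · refine hback _ ?_
    rw [← he, hE, zero_mul, show σ / 2 * (2 * |w|) = σ * |w| by ring, hσw]
  · rw [uIcc_of_le hS0] at hs
    have h1 : Real.exp (-s) ≤ 1 := Real.exp_le_one_iff.2 (by linarith [hs.1])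
    have h2 := Real.exp_pos (-s)
    rcases hσ with rfl | rfl <;> nlinarith

variable {M : Type*} [TopologicalSpace M] [ChartedSpace ℂ M] [IsManifold IC ∞ M] [T2Space M]
  [CompactSpace M] {o : Or M} (m : Mo o) {p q x : M}

/-- the linear field of the chart at `p` -/
def lv (a b : ℝ) (z : ℂ) : ℂ := ⟨a * z.re, b * z.im⟩

theorem ch (hp : p ∈ m.C) : Ch (m.Q p) (ball 0 1) :=
  ⟨isOpen_ball, fun z hz => (m.pos p hp z (mem_ball_zero_iff.1 hz)).1, m.inj p hp⟩

theorem vQ (hp : p ∈ m.C) (z : ℂ) (hz : z ∈ ball (0 : ℂ) 1) :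
    m.v (m.Q p z) = dQ (m.Q p) z (lv (m.a p) (m.b p) z) := m.vQ p hp z (mem_ball_zero_iff.1 hz)

theorem cpl : Cpl m.v := complete_of_compactSpace m.smv

theorem fl_add' (s t : ℝ) (x : M) : fl m.v (s + t) x = fl m.v s (fl m.v t x) :=
  (cpl m).add m.smv s t x

theorem v_crit (hp : p ∈ m.C) : m.v p = 0 := by
  have h := vQ m hp 0 (mem_ball_self one_pos)
  have h1 : lv (m.a p) (m.b p) 0 = 0 := by simp [lv, Complex.ext_iff]
  rw [h1, dQ_zero] at h
  have h2 : (m.v p : ℂ) = m.v (m.Q p 0) := congrArg (fun y => (m.v y : ℂ)) (m.ctr p hp).symm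
  exact h2.trans h

theorem fl_crit (hp : p ∈ m.C) (t : ℝ) : fl m.v t p = p := (fl_of_zero m.smv (v_crit m hp) t).2

theorem fl_notMem (hx : x ∉ m.C) (t : ℝ) : fl m.v t x ∉ m.C := fun h => by
  have h1 := fl_crit m h (-t)
  rw [← fl_add', neg_add_cancel, fl_zero m.smv] at h1
  exact hx (h1 ▸ h)

theorem f_strict (hx : x ∉ m.C) : StrictMono fun t => m.f (fl m.v t x) := by
  have h := fun t => hasDerivAt_comp_fl m.smv (cpl m (t, x)) (f := m.f)
    ((m.smf _).mdifferentiableAt (by simp))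
  refine strictMono_of_deriv_pos fun t => ?_
  rw [(h t).deriv]
  exact m.up _ (fl_notMem m hx t)

theorem f_mono (x : M) : Monotone fun t => m.f (fl m.v t x) := by
  by_cases hx : x ∈ m.C
  · simp only [fl_crit m hx]; exact monotone_const
  · exact (f_strict m hx).monotone

theorem f_le {t : ℝ} (ht : 0 ≤ t) (x : M) : m.f x ≤ m.f (fl m.v t x) := by
  simpa only [fl_zero m.smv] using f_mono m x ht

/-- an orbit meets a level at most once -/
theorem eq_of_f_eq {s t : ℝ} (h : m.f (fl m.v s x) = m.f (fl m.v t x)) :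
    fl m.v s x = fl m.v t x := by
  by_cases hx : x ∈ m.C
  · simp only [fl_crit m hx]
  · rw [(f_strict m hx).injective h]

theorem sad (hp : p ∈ m.C) (hs : m.a p ≠ m.b p) : m.a p = 1 ∧ m.b p = -1 := by
  rcases m.ab p hp with h | h | h
  · exact (hs (h.1.trans h.2.symm)).elim
  · exact (hs (h.1.trans h.2.symm)).elim
  · exact h

theorem hasDerivAt_mk {u w : ℝ → ℝ} {u' w' t : ℝ} (hu : HasDerivAt u u' t) (hw : HasDerivAt w w' t) :
    HasDerivAt (fun s => (⟨u s, w s⟩ : ℂ)) (⟨u', w'⟩ : ℂ) t :=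
  Complex.equivRealProdCLM.symm.hasFDerivAt.comp_hasDerivAt t (hu.prodMk hw)

/-- the flow in the chart of a saddle -/
theorem fl_lin (hp : p ∈ m.C) (hs : m.a p ≠ m.b p) (u w T : ℝ)
    (h : ∀ s ∈ uIcc 0 T, (u * Real.exp s) ^ 2 + (w * Real.exp (-s)) ^ 2 < 1) :
    fl m.v T (m.Q p ⟨u, w⟩) = m.Q p ⟨u * Real.exp T, w * Real.exp (-T)⟩ := by
  have h1 := (ch m hp).fl_curve m.smv (vQ m hp)
    (g := fun s => (⟨u * Real.exp s, w * Real.exp (-s)⟩ : ℂ)) (T := T) (fun s => ?_) fun s hs => ?_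
  · simpa using h1
  · have h2 := hasDerivAt_mk ((Real.hasDerivAt_exp s).const_mul u)
      (((hasDerivAt_neg s).exp).const_mul w)
    convert h2 using 1
    simp [lv, sad m hp hs]
  · rw [mem_ball_zero_iff, norm_lt_iff one_pos]
    simpa using h s hs

theorem Q_nhds (hp : p ∈ m.C) : m.Q p '' ball 0 (1 / 2) ∈ 𝓝 (m.Q p 0) :=
  (ch m hp).image_nhds (mem_ball_self one_pos) (ball_mem_nhds _ (by norm_num))

theorem Q_inj (hp : p ∈ m.C) {u w u' w' : ℝ} (h : u ^ 2 + w ^ 2 < 1) (h' : u' ^ 2 + w' ^ 2 < 1)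
    (he : m.Q p ⟨u, w⟩ = m.Q p ⟨u', w'⟩) : u = u' ∧ w = w' := by
  have := m.inj p hp (by rw [mem_ball_zero_iff, norm_lt_iff one_pos]; simpa using h)
    (by rw [mem_ball_zero_iff, norm_lt_iff one_pos]; simpa using h') he
  exact ⟨congrArg Complex.re this, congrArg Complex.im this⟩

/-- the stable set of a saddle -/
theorem stable (hq : q ∈ m.C) (hs : m.a q ≠ m.b q)
    (hx : Tendsto (fun t => fl m.v t x) atTop (𝓝 q)) :
    x = q ∨ ∃ σ : ℝ, (σ = 1 ∨ σ = -1) ∧ ∃ t, fl m.v t (m.Q q ⟨0, σ / 2⟩) = x := by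
  have hc : m.Q q ⟨0, 0⟩ = q := m.ctr q hq
  have := trap (F := fl m.v) (Q := fun u w => m.Q q ⟨u, w⟩) (x := x) (fl_add' m) (fl_zero m.smv)
    (fl_lin m hq hs) (fun u w u' w' h h' he => (Q_inj m hq h h' he).1)
    (mem_of_superset (Q_nhds m hq) ?_) (by rwa [hc])
  · rwa [hc] at this
  · rintro _ ⟨z, hz, rfl⟩
    exact ⟨z.re, z.im, (norm_lt_iff (by norm_num)).1 (mem_ball_zero_iff.1 hz), rfl⟩

/-- the unstable set of a saddle -/
theorem unstable (hp : p ∈ m.C) (hs : m.a p ≠ m.b p)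
    (hx : Tendsto (fun t => fl m.v t x) atBot (𝓝 p)) :
    x = p ∨ ∃ σ : ℝ, (σ = 1 ∨ σ = -1) ∧ ∃ t, fl m.v t (m.Q p ⟨σ / 2, 0⟩) = x := by
  have hc : m.Q p ⟨0, 0⟩ = p := m.ctr p hp
  have := trap (F := fun t => fl m.v (-t)) (Q := fun u w => m.Q p ⟨w, u⟩) (x := x)
    (fun s t y => by rw [← fl_add', neg_add]) (fun y => by rw [neg_zero, fl_zero m.smv])
    (fun u w T h => ?_) (fun u w u' w' h h' he => (Q_inj m hp (by linarith) (by linarith) he).2)
    (mem_of_superset (Q_nhds m hp) ?_) (by rw [hc]; exact hx.comp tendsto_neg_atTop_atBot)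
  · rw [hc] at this
    exact this.imp id fun ⟨σ, hσ, t, ht⟩ => ⟨σ, hσ, -t, ht⟩
  · rw [fl_lin m hp hs w u (-T) fun s hs' => ?_, neg_neg]
    have := h (-s) (by
      rw [mem_uIcc] at hs' ⊢
      rcases hs' with h | h
      · right; constructor <;> linarith [h.1, h.2]
      · left; constructor <;> linarith [h.1, h.2])
    rw [neg_neg] at this
    linarith
  · rintro _ ⟨z, hz, rfl⟩
    have := (norm_lt_iff (by norm_num)).1 (mem_ball_zero_iff.1 hz)
    exact ⟨z.im, z.re, by linarith, rfl⟩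

end Crest.Agent.X212.Mor94
end
end

-- ▼ part X212/Cut44/Dy
section

/-!
# Row 212, PERF, CUT (helper44): gradient-like flows, time reversal, limits
-/

set_option autoImplicit false
set_option linter.unusedSectionVars false
noncomputable section
open Set Filter Topology Function Complex
open scoped ContDiff Manifold

namespace Crest.Agent.X212.Cut44

open Crest.Agent.X212.Prf6

/-- the linear flow -/
def ln (a b t : ℝ) (z : ℂ) : ℂ := ⟨Real.exp (a * t) * z.re, Real.exp (b * t) * z.im⟩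

theorem ln_same (a t : ℝ) (z : ℂ) : ln a a t z = Real.exp (a * t) * z := by
  apply Complex.ext <;> simp [ln, -ofReal_exp]

theorem nlt {z : ℂ} : ‖z‖ < 1 ↔ z.re ^ 2 + z.im ^ 2 < 1 := by
  simpa using Mor94.norm_lt_iff (z := z) one_pos

theorem ln_conv {a b s t : ℝ} {z : ℂ} (h0 : ‖z‖ < 1) (h1 : ‖ln a b t z‖ < 1) (hs : s ∈ uIcc 0 t) :
    ‖ln a b s z‖ < 1 := by
  rw [← segment_eq_uIcc] at hs
  obtain ⟨u, θ, hu, hθ, e, rfl⟩ := hs
  have k : ∀ c : ℝ, Real.exp (c * (u • 0 + θ • t)) ^ 2 ≤ u + θ * Real.exp (c * t) ^ 2 := fun c => by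
    have := convexOn_exp.2 (mem_univ 0) (mem_univ (2 * (c * t))) hu hθ e
    simp only [smul_eq_mul, mul_zero, zero_add, Real.exp_zero, mul_one] at this ⊢
    rw [← Real.exp_nat_mul, ← Real.exp_nat_mul, Nat.cast_ofNat,
      show 2 * (c * (θ * t)) = θ * (2 * (c * t)) by ring]
    exact this
  rw [nlt] at h0 h1 ⊢
  simp only [ln, mul_pow] at h1 ⊢
  have k1 := mul_le_mul_of_nonneg_right (k a) (sq_nonneg z.re)
  have k2 := mul_le_mul_of_nonneg_right (k b) (sq_nonneg z.im)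
  have k3 := mul_le_mul_of_nonneg_left (le_max_left (z.re ^ 2 + z.im ^ 2)
    (Real.exp (a * t) ^ 2 * z.re ^ 2 + Real.exp (b * t) ^ 2 * z.im ^ 2)) hu
  have k4 := mul_le_mul_of_nonneg_left (le_max_right (z.re ^ 2 + z.im ^ 2)
    (Real.exp (a * t) ^ 2 * z.re ^ 2 + Real.exp (b * t) ^ 2 * z.im ^ 2)) hθ
  have k5 := max_lt h0 h1
  obtain rfl : u = 1 - θ := by linarith
  nlinarith

variable {M : Type*} [TopologicalSpace M] [ChartedSpace ℂ M] [IsManifold IC ∞ M] [T2Space M]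
  [CompactSpace M] {o : Or M}

/-- a gradient-like flow, linear in charts at the rest points, without saddle connections -/
structure Dy (o : Or M) where
  Φ : ℝ → Equiv.Perm M
  f : M → ℝ
  C : Finset M
  Q : M → ℂ → M
  a : M → ℝ
  b : M → ℝ
  c : M → ℝ
  iso : Iso o Φ
  add : ∀ s t x, Φ (s + t) x = Φ s (Φ t x)
  cont : Continuous f
  cpos : ∀ p ∈ C, 0 < c p
  strict : ∀ x ∉ C, StrictMono fun t => f (Φ t x)
  fix : ∀ p ∈ C, ∀ t, Φ t p = p
  ab : ∀ p ∈ C, (a p = 1 ∧ b p = 1) ∨ (a p = -1 ∧ b p = -1) ∨ (a p = 1 ∧ b p = -1)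
  pos : ∀ p ∈ C, ∀ z : ℂ, ‖z‖ < 1 → Pm oC o (Q p) z
  inj : ∀ p ∈ C, InjOn (Q p) (Metric.ball 0 1)
  ctr : ∀ p ∈ C, Q p 0 = p
  fQ : ∀ p ∈ C, ∀ z : ℂ, ‖z‖ < 1 → f (Q p z) = f p + c p * (a p * z.re ^ 2 + b p * z.im ^ 2)
  lin : ∀ p ∈ C, ∀ t (z : ℂ), ‖z‖ < 1 → ‖ln (a p) (b p) t z‖ < 1 →
    Φ t (Q p z) = Q p (ln (a p) (b p) t z)
  noc : ∀ p ∈ C, ∀ q ∈ C, a p ≠ b p → a q ≠ b q → ∀ x ∉ C,
    ¬ (Tendsto (fun t => Φ t x) atBot (𝓝 p) ∧ Tendsto (fun t => Φ t x) atTop (𝓝 q))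

/-- the flow of a Morse datum -/
def ofMo (m : Mo o) (h : m.Noc) : Dy o where
  Φ := flP m.smv (Mor94.cpl m)
  f := m.f
  C := m.C
  Q := m.Q
  a := m.a
  b := m.b
  c := m.c
  iso := iso_flP _ _
  add := Mor94.fl_add' m
  cont := m.smf.continuous
  cpos := m.cpos
  strict := fun _ hx => Mor94.f_strict m hx
  fix := fun _ hp => Mor94.fl_crit m hp
  ab := m.ab
  pos := m.pos
  inj := m.inj
  ctr := m.ctr
  fQ := m.fQ
  lin := fun p hp t z h0 h1 => by
    have k := (Mor94.ch m hp).fl_curve m.smv (Mor94.vQ m hp)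
      (g := fun s => ln (m.a p) (m.b p) s z) (T := t) (fun s => ?_) fun s hs =>
        mem_ball_zero_iff.2 (ln_conv h0 h1 hs)
    · simpa [ln, flP_apply] using k
    · have e : ∀ c x : ℝ, HasDerivAt (fun s => Real.exp (c * s) * x) (c * (Real.exp (c * s) * x)) s :=
        fun c x => ((((hasDerivAt_id s).const_mul c).exp).mul_const x).congr_deriv (by simp; ring)
      exact Mor94.hasDerivAt_mk (e _ _) (e _ _)
  noc := h

namespace Dy
variable (d : Dy o) {p q s x y : M}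

/-- time reversal -/
def rev : Dy o where
  Φ := fun t => d.Φ (-t)
  f := fun x => -d.f x
  C := d.C
  Q := fun p z => d.Q p (I * z)
  a := fun p => -d.b p
  b := fun p => -d.a p
  c := d.c
  iso := d.iso.reparam contDiff_neg neg_zero
  add := fun s t x => by rw [neg_add, d.add]
  cont := d.cont.neg
  cpos := d.cpos
  strict := fun x hx _ _ h => neg_lt_neg (d.strict x hx (neg_lt_neg h))
  fix := fun p hp t => d.fix p hp (-t)
  ab := fun p hp => by rcases d.ab p hp with h | h | h <;> simp [h.1, h.2]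
  pos := fun p hp z hz => Pm.comp (g := d.Q p) (f := fun w => I * w)
    (d.pos p hp _ (by simpa using hz)) (by simpa using pm_affine I_ne_zero 0 z)
  inj := fun p hp z hz w hw h => mul_left_cancel₀ I_ne_zero
    (d.inj p hp (by simpa using hz) (by simpa using hw) h)
  ctr := fun p hp => by simp [d.ctr p hp]
  fQ := fun p hp z hz => by rw [d.fQ p hp _ (by simpa using hz)]; simp; ring
  lin := fun p hp t z h0 h1 => by
    have e : I * ln (-d.b p) (-d.a p) t z = ln (d.a p) (d.b p) (-t) (I * z) := by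
      apply Complex.ext <;> simp [ln]
    rw [e]
    exact d.lin p hp _ _ (by simpa using h0) (by rw [← e]; simpa using h1)
  noc := fun p hp q hq h1 h2 x hx h => d.noc q hq p hp (fun k => h2 (by rw [k]))
    (fun k => h1 (by rw [k])) x hx
    ⟨by simpa [comp_def] using h.2.comp tendsto_neg_atBot_atTop,
      by simpa [comp_def] using h.1.comp tendsto_neg_atTop_atBot⟩

theorem zero (x : M) : d.Φ 0 x = x := by rw [d.iso.zero]; rfl

theorem back (t : ℝ) (x : M) : d.Φ (-t) (d.Φ t x) = x := by rw [← d.add, neg_add_cancel, d.zero]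

theorem mono (x : M) : Monotone fun t => d.f (d.Φ t x) := by
  by_cases hx : x ∈ d.C
  · simp only [d.fix x hx]; exact monotone_const
  · exact (d.strict x hx).monotone

theorem orb (x : M) : Continuous fun t => d.Φ t x :=
  d.iso.cont.comp (continuous_id.prodMk continuous_const)

theorem ct (t : ℝ) : Continuous (d.Φ t) := G_cont (d.iso.mem t)

theorem ch (hp : p ∈ d.C) : Mor94.Ch (d.Q p) (Metric.ball 0 1) :=
  ⟨Metric.isOpen_ball, fun z hz => (d.pos p hp z (mem_ball_zero_iff.1 hz)).1, d.inj p hp⟩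

theorem ball_nhds (hp : p ∈ d.C) {r : ℝ} (hr : 0 < r) : d.Q p '' Metric.ball 0 r ∈ 𝓝 p := by
  have := (d.ch hp).image_nhds (Metric.mem_ball_self one_pos) (Metric.ball_mem_nhds 0 hr)
  rwa [d.ctr p hp] at this

theorem exists_lim (x : M) : ∃ p ∈ d.C, Tendsto (fun t => d.Φ t x) atTop (𝓝 p) := by
  have cl : ∀ y, MapClusterPt y atTop (fun t => d.Φ t x) → y ∈ d.C := fun y hy => by
    by_contra hn
    have hL := tendsto_atTop_ciSup (d.mono x) ((isCompact_range d.cont).bddAbove.mono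
      (by rintro _ ⟨t, rfl⟩; exact ⟨_, rfl⟩))
    have key : ∀ s, d.f (d.Φ s y) = _ := fun s => eq_of_nhds_neBot
      ((hy.continuousAt_comp (f := fun z => d.f (d.Φ s z))
        (d.cont.comp (d.ct s)).continuousAt).clusterPt.mono
        ((hL.comp (tendsto_atTop_add_const_left _ s tendsto_id)).congr fun t => by simp [d.add]))
    exact (d.strict y hn one_pos).ne (by simp only [key])
  obtain ⟨U, hU, hd⟩ := d.C.finite_toSet.t2_separation
  obtain ⟨T, hT⟩ := eventually_atTop.1 ((isCompact_univ.tendsto_nhdsSet_of_mapClusterPt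
    (Eventually.of_forall fun _ => mem_univ _) fun y _ h => cl y h).eventually
    ((isOpen_biUnion (s := (d.C : Set M)) fun p _ => (hU p).2).mem_nhdsSet.2
      fun p hp => mem_biUnion hp (hU p).1))
  obtain ⟨p, hp, hpT⟩ := mem_iUnion₂.1 (hT T le_rfl)
  have stay : (fun t => d.Φ t x) '' Ici T ⊆ U p := by
    refine (isPreconnected_Ici.image _ (d.orb x).continuousOn).subset_left_of_subset_union
      (hU p).2 (isOpen_biUnion (s := (d.C : Set M) \ {p}) fun q _ => (hU q).2)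
      (disjoint_iUnion₂_right.2 fun q hq => hd hp hq.1 fun k => hq.2 k.symm) ?_
      ⟨_, ⟨T, self_mem_Ici, rfl⟩, hpT⟩
    rintro _ ⟨t, ht, rfl⟩
    obtain ⟨q, hq, k⟩ := mem_iUnion₂.1 (hT t ht)
    by_cases e : q = p
    · exact Or.inl (e ▸ k)
    · exact Or.inr (mem_biUnion (show q ∈ (d.C : Set M) \ {p} from ⟨hq, e⟩) k)
  refine ⟨p, hp, isCompact_univ.tendsto_nhds_of_unique_mapClusterPt
    (Eventually.of_forall fun _ => mem_univ _) fun y _ hy => by_contra fun hne => ?_⟩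
  obtain ⟨t, h1, h2⟩ := ((hy.frequently ((hU y).2.mem_nhds (hU y).1)).and_eventually
    (eventually_ge_atTop T)).exists
  exact disjoint_left.1 (hd (cl y hy) hp hne) h1 (stay ⟨t, h2, rfl⟩)

/-- the forward limit -/
def om (x : M) : M := (d.exists_lim x).choose

theorem om_mem (x : M) : d.om x ∈ d.C := (d.exists_lim x).choose_spec.1

theorem om_lim (x : M) : Tendsto (fun t => d.Φ t x) atTop (𝓝 (d.om x)) :=
  (d.exists_lim x).choose_spec.2

theorem om_eq (h : Tendsto (fun t => d.Φ t x) atTop (𝓝 p)) : d.om x = p :=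
  tendsto_nhds_unique (d.om_lim x) h

theorem om_flow (t : ℝ) (x : M) : d.om (d.Φ t x) = d.om x :=
  d.om_eq (((d.om_lim x).comp (tendsto_atTop_add_const_right _ t tendsto_id)).congr
    fun s => d.add s t x)

theorem al_flow (t : ℝ) (x : M) : d.rev.om (d.Φ t x) = d.rev.om x := by
  simpa [rev] using d.rev.om_flow (-t) x

theorem om_crit (hp : p ∈ d.C) : d.om p = p :=
  d.om_eq (by simp only [d.fix p hp]; exact tendsto_const_nhds)

theorem rr_om : d.rev.rev.om = d.om :=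
  funext fun x => d.rev.rev.om_eq (by simpa [rev] using d.om_lim x)

/-- sinks -/
def Mx (p : M) : Prop := p ∈ d.C ∧ d.a p = -1

/-- saddles -/
def Sd (p : M) : Prop := p ∈ d.C ∧ d.a p ≠ d.b p

theorem rr_mx : d.rev.rev.Mx = d.Mx := funext fun p => by simp [Mx, rev]

theorem rev_sd : d.rev.Sd = d.Sd := funext fun p => by simp [Sd, rev, eq_comm]

variable {d}

theorem Mx.b (h : d.Mx p) : d.b p = -1 := by
  rcases d.ab p h.1 with k | k | k
  · linarith [k.1, h.2]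
  · exact k.2
  · exact k.2

theorem Sd.ab (h : d.Sd p) : d.a p = 1 ∧ d.b p = -1 := by
  rcases d.ab p h.1 with k | k | k
  · exact (h.2 (k.1.trans k.2.symm)).elim
  · exact (h.2 (k.1.trans k.2.symm)).elim
  · exact k

theorem Mx.nsd (h : d.Mx p) : ¬ d.Sd p := fun k => k.2 (h.2.trans h.b.symm)

theorem Mx.nmn (h : d.Mx p) : ¬ d.rev.Mx p := fun k => by
  have : -d.b p = -1 := k.2
  linarith [h.b]

theorem tri (hp : p ∈ d.C) : d.Mx p ∨ d.rev.Mx p ∨ d.Sd p := by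
  rcases d.ab p hp with k | k | k
  · exact Or.inr (Or.inl ⟨hp, by simp [rev, k.2]⟩)
  · exact Or.inl ⟨hp, k.1⟩
  · exact Or.inr (Or.inr ⟨hp, by rw [k.1, k.2]; norm_num⟩)

theorem Mx.lin (h : d.Mx p) {z : ℂ} (hz : ‖z‖ < 1) {t : ℝ} (h' : Real.exp (-t) * ‖z‖ < 1) :
    d.Φ t (d.Q p z) = d.Q p (Real.exp (-t) * z) := by
  have := d.lin p h.1 t z hz
  rw [h.2, h.b, ln_same, neg_one_mul] at this
  exact this (by rwa [norm_mul, norm_real, Real.norm_of_nonneg (Real.exp_pos _).le])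

theorem exp_norm {t : ℝ} (ht : 0 ≤ t) (z : ℂ) : Real.exp (-t) * ‖z‖ ≤ ‖z‖ :=
  mul_le_of_le_one_left (norm_nonneg z) (Real.exp_le_one_iff.2 (neg_nonpos.2 ht))

theorem Mx.om (h : d.Mx p) {z : ℂ} (hz : ‖z‖ < 1) : d.om (d.Q p z) = p := by
  refine d.om_eq (Tendsto.congr' (f₁ := fun t => d.Q p (Real.exp (-t) * z)) ?_ ?_)
  · filter_upwards [eventually_ge_atTop 0] with t ht using (h.lin hz ((exp_norm ht z).trans_lt hz)).symm
  · have := (d.pos p h.1 0 (by simp)).1.contMDiffAt.continuousAt.tendsto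
    rw [d.ctr p h.1] at this
    refine this.comp ?_
    simpa using ((continuous_ofReal.tendsto 0).comp Real.tendsto_exp_neg_atTop_nhds_zero).mul_const z

/-- forward invariant sets -/
def Inv (d : Dy o) (N : Set M) : Prop := ∀ t, 0 ≤ t → ∀ y ∈ N, d.Φ t y ∈ N

theorem Mx.stab (h : d.Mx p) {O : Set M} (hO : O ∈ 𝓝 p) :
    ∃ N, IsOpen N ∧ d.Inv N ∧ N ⊆ O ∧ p ∈ N := by
  obtain ⟨r, hr, k⟩ := Metric.mem_nhds_iff.1 (inter_mem (Metric.ball_mem_nhds (0 : ℂ) one_pos)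
    ((d.pos p h.1 0 (by simp)).1.contMDiffAt.continuousAt.preimage_mem_nhds
      ((d.ctr p h.1).symm ▸ hO)))
  refine ⟨d.Q p '' Metric.ball 0 r, (d.ch h.1).isOpen_image Metric.isOpen_ball fun z hz => (k hz).1,
    ?_, ?_, 0, Metric.mem_ball_self hr, d.ctr p h.1⟩
  · rintro t ht _ ⟨z, hz, rfl⟩
    have h1 := mem_ball_zero_iff.1 (k hz).1
    refine ⟨_, ?_, (h.lin h1 ((exp_norm ht z).trans_lt h1)).symm⟩
    rw [mem_ball_zero_iff, norm_mul, norm_real, Real.norm_of_nonneg (Real.exp_pos _).le]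
    exact (exp_norm ht z).trans_lt (mem_ball_zero_iff.1 hz)
  · rintro _ ⟨z, hz, rfl⟩
    exact (k hz).2

theorem unif {N K : Set M} (hN : IsOpen N) (hi : d.Inv N) (hK : IsCompact K)
    (h : ∀ y ∈ K, d.om y ∈ N) : ∃ T, ∀ t, T ≤ t → ∀ y ∈ K, d.Φ t y ∈ N := by
  have mo : Monotone fun t => d.Φ t ⁻¹' N := fun s t k y hy => by
    have := hi (t - s) (sub_nonneg.2 k) _ hy
    rwa [← d.add, sub_add_cancel] at this
  obtain ⟨T, hT⟩ := hK.elim_directed_cover (fun t => d.Φ t ⁻¹' N) (fun t => hN.preimage (d.ct t))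
    (fun y hy => mem_iUnion.2 ((d.om_lim y).eventually (hN.mem_nhds (h y hy))).exists)
    mo.directed_le
  exact ⟨T, fun t ht y hy => mo ht (hT hy)⟩

theorem open_of {A : M → Prop} (h : ∀ p, A p → ∀ᶠ y in 𝓝 p, p ∈ d.C → A (d.om y)) :
    IsOpen {y | A (d.om y)} := by
  refine isOpen_iff_mem_nhds.2 fun y hy => ?_
  obtain ⟨t, ht⟩ := ((d.om_lim y).eventually (h _ hy).eventually_nhds).exists
  filter_upwards [(d.ct t).continuousAt.eventually ht] with z hz
  simpa [d.om_flow] using hz (d.om_mem y)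

theorem Mx.ev (h : d.Mx p) : ∀ᶠ y in 𝓝 p, d.om y = p := by
  filter_upwards [d.ball_nhds h.1 one_pos]
  rintro _ ⟨z, hz, rfl⟩
  exact h.om (mem_ball_zero_iff.1 hz)

theorem Mx.basin (h : d.Mx p) : IsOpen {y | d.om y = p} :=
  open_of (A := (· = p)) fun _ k => by subst k; exact h.ev.mono fun _ k _ => k

theorem eq_of_mn (h : d.rev.Mx (d.om y)) : d.om y = y := by
  obtain ⟨T, z, hz, e⟩ := ((d.om_lim y).eventually (d.ball_nhds h.1 one_pos)).exists
  have h1 : d.f (d.Φ T y) ≤ d.f (d.om y) :=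
    (d.mono y).ge_of_tendsto ((d.cont.tendsto _).comp (d.om_lim y)) T
  have h2 : -d.b (d.om y) = -1 := h.2
  have h3 : -d.a (d.om y) = -1 := h.b
  rw [← e, d.fQ _ h.1 z (mem_ball_zero_iff.1 hz), neg_injective h2, neg_injective h3] at h1
  have h4 := d.cpos _ h.1
  have h5 : z.re ^ 2 + z.im ^ 2 ≤ 0 := by
    by_contra k
    nlinarith [mul_pos h4 (not_le.1 k)]
  have h6 : z = 0 := Complex.ext
    ((pow_eq_zero_iff two_ne_zero).1 (by nlinarith [sq_nonneg z.re, sq_nonneg z.im]))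
    ((pow_eq_zero_iff two_ne_zero).1 (by nlinarith [sq_nonneg z.re, sq_nonneg z.im]))
  rw [h6, d.ctr _ h.1] at e
  rw [← d.back T y, ← e, d.om_flow, d.fix _ h.1, d.om_crit h.1]

theorem eq_of_mx (h : d.Mx (d.rev.om y)) : d.rev.om y = y := eq_of_mn (d.rr_mx ▸ h)

theorem exists_mx (d : Dy o) [Nonempty M] : ∃ p, d.Mx p := by
  obtain ⟨p, -, hp⟩ := isCompact_univ.exists_isMaxOn univ_nonempty d.cont.continuousOn
  have h : p ∈ d.C := by_contra fun k => by
    have := d.strict p k one_pos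
    simp only [d.zero] at this
    exact not_le.2 this (hp (mem_univ _))
  refine ⟨p, h, by_contra fun k => ?_⟩
  have h1 : d.a p = 1 := by rcases d.ab p h with j | j | j <;> first | exact j.1 | exact (k j.1).elim
  have h2 : d.f (d.Q p (1 / 2 : ℝ)) ≤ d.f p := hp (mem_univ _)
  rw [d.fQ p h _ (by rw [norm_real]; norm_num), h1] at h2
  simp only [ofReal_re, ofReal_im] at h2
  nlinarith [d.cpos p h]

/-- the unstable separatrices end at sinks -/
theorem Sd.end_mx (h : d.Sd s) (h1 : d.rev.om y = s) (h2 : y ≠ s) : d.Mx (d.om y) := by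
  have hy : y ∉ d.C := fun k => h2 ((d.rev.om_crit k).symm.trans h1)
  rcases tri (d.om_mem y) with k | k | k
  · exact k
  · exact (hy (eq_of_mn k ▸ d.om_mem y)).elim
  · refine (d.noc s h.1 _ k.1 h.2 k.2 y hy ⟨?_, d.om_lim y⟩).elim
    have := (d.rev.om_lim y).comp tendsto_neg_atBot_atTop
    rw [h1] at this
    simpa [rev, comp_def] using this

theorem Sd.lin (h : d.Sd s) (t : ℝ) {z : ℂ} (h0 : ‖z‖ < 1) (h1 : ‖ln 1 (-1) t z‖ < 1) :
    d.Φ t (d.Q s z) = d.Q s (ln 1 (-1) t z) := by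
  have := d.lin s h.1 t z h0
  rw [h.ab.1, h.ab.2] at this
  exact this h1

/-- the stable set of a saddle -/
theorem Sd.stable (h : d.Sd s) (h1 : d.om y = s) :
    y = s ∨ ∃ σ : ℝ, (σ = 1 ∨ σ = -1) ∧ ∃ t, d.Φ t (d.Q s ⟨0, σ / 2⟩) = y := by
  have hc : d.Q s ⟨0, 0⟩ = s := d.ctr s h.1
  have := Mor94.trap (F := fun t x => d.Φ t x) (Q := fun u w => d.Q s ⟨u, w⟩) (x := y) d.add d.zero
    (fun u w T k => ?_) (fun u w u' w' k k' e => congrArg re (d.inj s h.1
      (mem_ball_zero_iff.2 (nlt.2 k)) (mem_ball_zero_iff.2 (nlt.2 k')) e))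
    ?_
    (by rw [hc, ← h1]; exact d.om_lim y)
  · rwa [hc] at this
  · rw [h.lin T (nlt.2 (by simpa using k 0 left_mem_uIcc))
      (nlt.2 (by simpa [ln, mul_comm] using k T right_mem_uIcc))]
    simp [ln, mul_comm]
  · rw [hc]
    refine mem_of_superset (d.ball_nhds h.1 one_half_pos) ?_
    rintro _ ⟨z, hz, rfl⟩
    exact ⟨z.re, z.im, (Mor94.norm_lt_iff (by norm_num)).1 (mem_ball_zero_iff.1 hz), rfl⟩

theorem Sd.om_axis (h : d.Sd s) {w : ℝ} (hw : w ^ 2 < 1) : d.om (d.Q s ⟨0, w⟩) = s := by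
  refine d.om_eq (Tendsto.congr' (f₁ := fun t => d.Q s (Real.exp (-t) * ⟨0, w⟩)) ?_ ?_)
  · filter_upwards [eventually_ge_atTop 0] with t ht
    have h0 : ‖(⟨0, w⟩ : ℂ)‖ < 1 := nlt.2 (by simpa using hw)
    have e : ln 1 (-1) t ⟨0, w⟩ = Real.exp (-t) * ⟨0, w⟩ := by
      apply Complex.ext <;> simp [ln, -ofReal_exp]
    rw [h.lin t h0, e]
    rw [e, norm_mul, norm_real, Real.norm_of_nonneg (Real.exp_pos _).le]
    exact (exp_norm ht _).trans_lt h0
  · have := (d.pos s h.1 0 (by simp)).1.contMDiffAt.continuousAt.tendsto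
    rw [d.ctr s h.1] at this
    refine this.comp ?_
    simpa using ((continuous_ofReal.tendsto 0).comp Real.tendsto_exp_neg_atTop_nhds_zero).mul_const
      (⟨0, w⟩ : ℂ)

end Dy

end Crest.Agent.X212.Cut44
end
end

-- ▼ part X212/Cut44/Strip
section

/-!
# Row 212, PERF, CUT (helper44): the strip along the unstable manifold of a saddle
-/

set_option autoImplicit false
set_option linter.unusedSectionVars false
noncomputable section
open Set Filter Topology Function Complex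
open scoped ContDiff Manifold

namespace Crest.Agent.X212.Cut44

open Crest.Agent.X212.Prf6

theorem ln_add (a b s t : ℝ) (z : ℂ) : ln a b s (ln a b t z) = ln a b (s + t) z := by
  apply Complex.ext <;> simp [ln, mul_add, Real.exp_add, mul_assoc]

theorem ln_zero (a b : ℝ) (z : ℂ) : ln a b 0 z = z := by apply Complex.ext <;> simp [ln]

theorem pm_ln (a b t : ℝ) (z : ℂ) : Pm oC oC (ln a b t) z :=
  pm_tri (g := fun x => Real.exp (a * t) * x) (h := fun _ => Real.exp (b * t)) (σ := id)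
    (by fun_prop) contDiff_const contDiff_id z
    (by rw [deriv_const_mul_field]; simpa using Real.exp_pos _) (Real.exp_pos _) (by simp)

/-- `√(1 + x²)` -/
def rt (x : ℝ) : ℝ := √(1 + x ^ 2)

theorem rt_pos (x : ℝ) : 0 < rt x := Real.sqrt_pos.2 (by positivity)

theorem abs_le_rt (x : ℝ) : |x| ≤ rt x := Real.abs_le_sqrt (by linarith)

theorem rt_le {c : ℝ} (hc : 1 ≤ c) (x : ℝ) : rt (c * x) ≤ c * rt x :=
  Real.sqrt_le_iff.2 ⟨mul_nonneg (by linarith) (rt_pos x).le, by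
    rw [mul_pow, mul_pow, rt, Real.sq_sqrt (by positivity)]; nlinarith⟩

/-- the plane into the region `|x y| ≤ δ` -/
def th (δ : ℝ) : ℂ → ℂ := tri id (fun x => δ / (2 * rt x)) Real.arctan

theorem th_re (δ : ℝ) (z : ℂ) : (th δ z).re = z.re := rfl
theorem th_im (δ : ℝ) (z : ℂ) : (th δ z).im = δ / (2 * rt z.re) * Real.arctan z.im := rfl

theorem pm_th {δ : ℝ} (hδ : 0 < δ) (z : ℂ) : Pm oC oC (th δ) z :=
  pm_tri contDiff_id (contDiff_const.div (contDiff_const.mul (ContDiff.sqrt (by fun_prop)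
    fun x => by positivity)) fun x => (mul_pos two_pos (rt_pos x)).ne') Real.contDiff_arctan z
    (by simp) (div_pos hδ (mul_pos two_pos (rt_pos _))) (deriv_arctan_pos _)

theorem th_inj {δ : ℝ} (hδ : 0 < δ) : Injective (th δ) := fun z w h => by
  have h1 : z.re = w.re := (congrArg re h :)
  have h2 := congrArg im h
  rw [th_im, th_im, h1] at h2
  exact Complex.ext h1 (Real.arctan_injective
    (mul_left_cancel₀ (div_pos hδ (mul_pos two_pos (rt_pos _))).ne' h2))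

theorem th_prod {δ : ℝ} (hδ : 0 < δ) (z : ℂ) : |(th δ z).re * (th δ z).im| ≤ δ := by
  have h0 := rt_pos z.re
  rw [th_re, th_im, abs_mul, abs_mul, abs_of_pos (div_pos hδ (mul_pos two_pos h0)),
    div_mul_eq_mul_div, ← mul_div_assoc, div_le_iff₀ (mul_pos two_pos h0)]
  have := mul_le_mul (abs_le_rt z.re) (abs_arctan_lt z.im).le (abs_nonneg _) h0.le
  nlinarith

theorem th_fwd {δ t : ℝ} (ht : 0 ≤ t) (z : ℂ) : ∃ z' : ℂ, z'.re = Real.exp t * z.re ∧
    |z'.im| ≤ |z.im| ∧ th δ z' = ln 1 (-1) t (th δ z) := by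
  have h0 := rt_pos z.re
  have h1 := rt_pos (Real.exp t * z.re)
  have h2 := rt_le (Real.one_le_exp ht) z.re
  have h3 := Real.exp_pos t
  let l := rt (Real.exp t * z.re) / (Real.exp t * rt z.re)
  obtain ⟨y, hy, e⟩ := intermediate_value_uIcc (a := 0) (b := z.im)
    Real.continuous_arctan.continuousOn (show l * Real.arctan z.im ∈ _ by
      rw [← segment_eq_uIcc, Real.arctan_zero]
      exact ⟨1 - l, l, sub_nonneg.2 ((div_le_one (by positivity)).2 h2), by positivity, by ring,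
        by simp⟩)
  refine ⟨⟨Real.exp t * z.re, y⟩, rfl, by simpa using abs_sub_left_of_mem_uIcc hy,
    Complex.ext (by simp [ln, th_re]) ?_⟩
  simp only [ln, th_im, e, l, neg_one_mul, Real.exp_neg]
  field_simp

variable {M : Type*} [TopologicalSpace M] [ChartedSpace ℂ M] [IsManifold IC ∞ M] [T2Space M]
  [CompactSpace M] {o : Or M} {d : Dy o} {s p q : M} {B : ℂ → M}

namespace Dy

theorem Sd.al_axis (h : d.Sd s) {u : ℝ} (hu : u ^ 2 < 1) : d.rev.om (d.Q s ⟨u, 0⟩) = s := by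
  have := Sd.om_axis (d := d.rev) (d.rev_sd ▸ h) (w := -u) (by simpa using hu)
  rwa [show d.rev.Q s ⟨0, -u⟩ = d.Q s ⟨u, 0⟩ from
    congrArg (d.Q s) (Complex.ext (by simp) (by simp) : I * ⟨0, -u⟩ = ⟨u, 0⟩)] at this

/-- no return to the box of a saddle -/
theorem Sd.noret (h : d.Sd s) {u v : ℂ} (u1 : u.re ^ 2 ≤ 1 / 4) (u2 : u.im ^ 2 ≤ 1 / 4)
    (v1 : v.re ^ 2 ≤ 1 / 4) (v2 : v.im ^ 2 ≤ 1 / 4) {t : ℝ} (ht : 0 ≤ t)
    (e : d.Φ t (d.Q s u) = d.Q s v) : v = ln 1 (-1) t u := by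
  have hu : ‖u‖ < 1 := nlt.2 (by linarith)
  have hv : ‖v‖ < 1 := nlt.2 (by linarith)
  have im : ∀ r, 0 ≤ r → (ln 1 (-1) r u).im ^ 2 ≤ 1 / 4 := fun r hr => by
    have h1 : Real.exp (-1 * r) ≤ 1 := Real.exp_le_one_iff.2 (by linarith)
    have h2 := Real.exp_pos (-1 * r)
    have h3 : Real.exp (-1 * r) ^ 2 ≤ 1 := by nlinarith
    simp only [ln, mul_pow]
    nlinarith [sq_nonneg u.im]
  by_cases k : (ln 1 (-1) t u).re ^ 2 ≤ 9 / 16
  · have h1 : ‖ln 1 (-1) t u‖ < 1 := nlt.2 (by linarith [im t ht])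
    rw [h.lin t hu h1] at e
    exact (d.inj s h.1 (mem_ball_zero_iff.2 h1) (mem_ball_zero_iff.2 hv) e).symm
  obtain ⟨r, hr, k'⟩ := intermediate_value_Icc ht (f := fun r => (ln 1 (-1) r u).re ^ 2)
    (by simp only [ln]; fun_prop) (show 9 / 16 ∈ _ from ⟨by rw [ln_zero]; linarith, (not_le.1 k).le⟩)
  have h1 : ‖ln 1 (-1) r u‖ < 1 := nlt.2 (by linarith [im r hr.1])
  have h2 := d.mono (d.Q s u) hr.2
  simp only [e, h.lin r hu h1, d.fQ s h.1 _ h1, d.fQ s h.1 _ hv, h.ab.1, h.ab.2] at h2 k'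
  have h3 := le_of_mul_le_mul_left (le_of_add_le_add_left h2) (d.cpos s h.1)
  nlinarith [im r hr.1, sq_nonneg v.im]

end Dy

/-- the strip of the saddle `s` with ends at the sinks `p`, `q` -/
structure Sp (d : Dy o) (s p q : M) (B : ℂ → M) : Prop where
  st : St o B
  sd : d.Sd s
  ctr : B 0 = s
  core : ∀ y, y ∈ core B ↔ d.rev.om y = s
  bw : ∀ z : ℂ, z.im ≠ 0 → d.rev.Mx (d.rev.om (B z))
  fwd : ∀ (z : ℂ) t, 0 ≤ t → ∃ z' : ℂ, z'.re = Real.exp t * z.re ∧ |z'.im| ≤ |z.im| ∧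
    d.Φ t (B z) = B z'
  fw : ∀ z, d.om (B z) = s ∨ d.om (B z) = p ∨ d.om (B z) = q
  top : ∀ O ∈ 𝓝 p, ∃ R, ∀ z : ℂ, R ≤ z.re → B z ∈ O
  bot : ∀ O ∈ 𝓝 q, ∃ R, ∀ z : ℂ, R ≤ -z.re → B z ∈ O
  mp : d.Mx p
  mq : d.Mx q

theorem exists_sp (h : d.Sd s) : ∃ p q B, Sp d s p q B := by
  have ne : ∀ z : ℂ, ‖z‖ < 1 → z ≠ 0 → d.Q s z ≠ s := fun z h1 h2 k =>
    h2 (d.inj s h.1 (mem_ball_zero_iff.2 h1) (by simp) (k.trans (d.ctr s h.1).symm))
  have cQ : ∀ z : ℂ, ‖z‖ < 1 → ContinuousAt (d.Q s) z := fun z hz =>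
    (d.pos s h.1 z hz).1.contMDiffAt.continuousAt
  let P : ℝ → M := fun ε => d.om (d.Q s ⟨ε / 2, 0⟩)
  have mx : ∀ ε : ℝ, ε ^ 2 = 1 → d.Mx (P ε) := fun ε hε => h.end_mx (h.al_axis (by nlinarith))
    (ne _ (nlt.2 (by simp only; nlinarith)) fun k => by
      have : ε / 2 = 0 := congrArg re k
      nlinarith)
  have mn : ∀ ε : ℝ, ε ^ 2 = 1 → d.rev.Mx (d.rev.om (d.Q s ⟨0, ε / 2⟩)) := fun ε hε =>
    Dy.Sd.end_mx (d := d.rev) (d.rev_sd ▸ h) (d.rr_om ▸ h.om_axis (by nlinarith))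
    (ne _ (nlt.2 (by simp only; nlinarith)) fun k => by
      have : ε / 2 = 0 := congrArg im k
      nlinarith)
  have ev : ∀ ε : ℝ, ε ^ 2 = 1 → ∀ᶠ y : ℝ in 𝓝 0, d.om (d.Q s ⟨ε / 2, y⟩) = P ε ∧
      d.rev.om (d.Q s ⟨y, ε / 2⟩) = d.rev.om (d.Q s ⟨0, ε / 2⟩) := fun ε hε => by
    have c1 : Continuous fun y : ℝ => (⟨ε / 2, y⟩ : ℂ) :=
      equivRealProdCLM.symm.continuous.comp (continuous_const.prodMk continuous_id)
    have c2 : Continuous fun y : ℝ => (⟨y, ε / 2⟩ : ℂ) :=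
      equivRealProdCLM.symm.continuous.comp (continuous_id.prodMk continuous_const)
    exact ((ContinuousAt.comp (f := fun y : ℝ => (⟨ε / 2, y⟩ : ℂ)) (cQ _ (nlt.2 (by simp only; nlinarith)))
      c1.continuousAt).eventually ((mx ε hε).basin.mem_nhds rfl)).and
      ((ContinuousAt.comp (f := fun y : ℝ => (⟨y, ε / 2⟩ : ℂ)) (cQ _ (nlt.2 (by simp only; nlinarith)))
      c2.continuousAt).eventually ((mn ε hε).basin.mem_nhds rfl))
  obtain ⟨ρ, hρ, hδ⟩ := Metric.eventually_nhds_iff.1 ((ev 1 (by norm_num)).and (ev (-1) (by norm_num)))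
  obtain ⟨δ, δ0, δ1, δ2⟩ : ∃ δ : ℝ, 0 < δ ∧ δ ≤ 1 / 4 ∧ 2 * δ < ρ :=
    ⟨min (1 / 4) (ρ / 4), by positivity, min_le_left _ _, by linarith [min_le_right (1 / 4) (ρ / 4)]⟩
  replace hδ : ∀ ε : ℝ, ε ^ 2 = 1 → ∀ y : ℝ, |y| ≤ 2 * δ → d.om (d.Q s ⟨ε / 2, y⟩) = P ε ∧
      d.rev.Mx (d.rev.om (d.Q s ⟨y, ε / 2⟩)) := fun ε hε y hy => by
    have := hδ (y := y) (by simpa using hy.trans_lt δ2)
    rcases sq_eq_one_iff.1 hε with rfl | rfl
    · exact ⟨this.1.1, this.1.2 ▸ mn _ hε⟩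
    · exact ⟨this.2.1, this.2.2 ▸ mn _ hε⟩
  let L : ℂ → ℝ := fun z => Real.log (2 * rt z.re)
  let sq : ℂ → ℂ := fun z => ln 1 (-1) (-L z) (th δ z)
  have eL : ∀ z, Real.exp (L z) = 2 * rt z.re := fun z => Real.exp_log (mul_pos two_pos (rt_pos _))
  have sre : ∀ z, (sq z).re = z.re / (2 * rt z.re) := fun z => by
    simp only [sq, ln, th_re, one_mul, Real.exp_neg, eL]; ring
  have sim : ∀ z, (sq z).im = δ * Real.arctan z.im := fun z => by
    have := rt_pos z.re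
    simp only [sq, ln, th_im, neg_one_mul, neg_neg, eL]; field_simp
  have s1 : ∀ z, (sq z).re ^ 2 ≤ 1 / 4 := fun z => by
    have := rt_pos z.re
    rw [sre, div_pow, div_le_iff₀ (by positivity)]
    nlinarith [sq_le_sq' (abs_le.1 (abs_le_rt z.re)).1 (abs_le.1 (abs_le_rt z.re)).2]
  have s2 : ∀ z, (sq z).im ^ 2 ≤ 1 / 4 := fun z => by
    have h1 := abs_lt.1 (abs_arctan_lt z.im)
    rw [sim]
    nlinarith [sq_le_sq' (show -(1 / 2) ≤ δ * Real.arctan z.im by nlinarith)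
      (show δ * Real.arctan z.im ≤ 1 / 2 by nlinarith)]
  have s3 : ∀ z, ‖sq z‖ < 1 := fun z => nlt.2 (by linarith [s1 z, s2 z])
  let B : ℂ → M := fun z => d.Φ (L z) (d.Q s (sq z))
  have spec : ∀ z τ, ‖ln 1 (-1) (-τ) (th δ z)‖ < 1 →
      B z = d.Φ τ (d.Q s (ln 1 (-1) (-τ) (th δ z))) := fun z τ k => by
    have e : ln 1 (-1) (L z - τ) (sq z) = ln 1 (-1) (-τ) (th δ z) := by
      rw [ln_add]; congr 1; ring
    rw [← e, ← h.lin _ (s3 z) (e ▸ k), ← d.add, add_sub_cancel]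
  have axis : ∀ u τ : ℝ, u ^ 2 < 1 → B (Real.exp τ * u : ℝ) = d.Φ τ (d.Q s ⟨u, 0⟩) := fun u τ k => by
    have e : ln 1 (-1) (-τ) (th δ (Real.exp τ * u : ℝ)) = ⟨u, 0⟩ := by
      apply Complex.ext <;> simp [ln, th_re, th_im, Real.exp_neg, -ofReal_exp]
    rw [spec _ τ (e ▸ nlt.2 (by simpa using k)), e]
  have side : ∀ ε : ℝ, ε ^ 2 = 1 → ∀ z : ℂ, 0 < ε * z.re → ∃ y, |y| ≤ 2 * δ ∧
      B z = d.Φ (Real.log (2 * (ε * z.re))) (d.Q s ⟨ε / 2, y⟩) := fun ε hε z hz => by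
    have e : ln 1 (-1) (-Real.log (2 * (ε * z.re))) (th δ z) =
        ⟨ε / 2, 2 * ε * ((th δ z).re * (th δ z).im)⟩ := by
      have z0 : z.re ≠ 0 := right_ne_zero_of_mul hz.ne'
      have e0 : ε ≠ 0 := left_ne_zero_of_mul hz.ne'
      apply Complex.ext <;> simp only [ln, th_re, one_mul, neg_one_mul, neg_neg, Real.exp_neg,
        Real.exp_log (mul_pos two_pos hz)]
      · field_simp; linarith
      · ring
    have b : |2 * ε * ((th δ z).re * (th δ z).im)| ≤ 2 * δ := by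
      rw [abs_mul, abs_mul, show |ε| = 1 by rcases sq_eq_one_iff.1 hε with rfl | rfl <;> simp]
      simpa using th_prod δ0 z
    have := sq_le_sq' (abs_le.1 b).1 (abs_le.1 b).2
    exact ⟨_, b, by rw [spec z _ (by rw [e, nlt]; simp only; nlinarith), e]⟩
  have ends : ∀ ε : ℝ, ε ^ 2 = 1 → ∀ O ∈ 𝓝 (P ε), ∃ R, ∀ z : ℂ, R ≤ ε * z.re → B z ∈ O := by
    intro ε hε O hO
    obtain ⟨N, n1, n2, n3, n4⟩ := (mx ε hε).stab hO
    obtain ⟨T, hT⟩ := Dy.unif n1 n2 ((isCompact_Icc (a := -(2 * δ)) (b := 2 * δ)).image_of_continuousOn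
      (f := fun y => d.Q s ⟨ε / 2, y⟩) fun y hy => (ContinuousAt.comp
        (f := fun y : ℝ => (⟨ε / 2, y⟩ : ℂ)) (cQ _ (nlt.2 (by
          have := sq_le_sq' hy.1 hy.2
          simp only; nlinarith))) (equivRealProdCLM.symm.continuous.comp
        (continuous_const.prodMk continuous_id)).continuousAt).continuousWithinAt)
      (by rintro _ ⟨y, hy, rfl⟩; rwa [(hδ ε hε y (abs_le.2 hy)).1])
    refine ⟨Real.exp T, fun z hz => ?_⟩
    have h0 := (Real.exp_pos T).trans_le hz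
    obtain ⟨y, y1, y2⟩ := side ε hε z h0
    exact y2 ▸ n3 (hT _ ((Real.le_log_iff_exp_le (by linarith)).2 (by linarith)) _
      ⟨y, abs_le.1 y1, rfl⟩)
  have inj : ∀ z w, L w ≤ L z → B z = B w → z = w := fun z w k e => by
    have e' : d.Φ (L z - L w) (d.Q s (sq z)) = d.Q s (sq w) := by
      rw [sub_eq_neg_add, d.add]; exact (congrArg _ e).trans (d.back _ _)
    have := congrArg (ln 1 (-1) (L w)) (h.noret (s1 z) (s2 z) (s1 w) (s2 w) (sub_nonneg.2 k) e')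
    simp only [sq, ln_add, add_neg_cancel, ln_zero, ← add_assoc, add_sub_cancel] at this
    exact (th_inj δ0 this).symm
  refine ⟨P 1, P (-1), B, ⟨fun z => ?_, fun z w e => (le_total (L w) (L z)).elim (inj z w · e)
    fun k => (inj w z k e.symm).symm⟩, h, ?_, fun y => ⟨?_, fun k => ?_⟩, fun z hz => ?_,
    fun z t ht => ?_, fun z => ?_, by simpa using ends 1 (by norm_num),
    by simpa using ends (-1) (by norm_num), mx 1 (by norm_num), mx (-1) (by norm_num)⟩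
  · have k := (pm_ln 1 (-1) (-L z) _).comp (pm_th δ0 z)
    refine ((d.iso.mem (L z) _).comp (Pm.comp (g := d.Q s)
      (f := ln 1 (-1) (-L z) ∘ th δ) (d.pos s h.1 _ (s3 z)) k)).congr ?_
    filter_upwards [k.1.contMDiffAt.continuousAt.norm.eventually (gt_mem_nhds (s3 z))] with w hw
    exact spec w _ hw
  · have := axis 0 0 (by norm_num)
    rw [d.zero] at this
    simpa using this.trans (d.ctr s h.1)
  · rintro ⟨x, rfl⟩
    have e : sq x = ⟨(sq x).re, 0⟩ := Complex.ext rfl (by simp [sim])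
    simp only [B, d.al_flow]
    rw [e, h.al_axis (by linarith [s1 x])]
  · rcases Dy.Sd.stable (d := d.rev) (d.rev_sd ▸ h) k with rfl | ⟨σ, hσ, t, rfl⟩
    · exact ⟨_, (axis 0 0 (by norm_num)).trans ((d.zero _).trans (d.ctr _ h.1))⟩
    · exact ⟨_, (axis (-(σ / 2)) (-t) (by rcases hσ with rfl | rfl <;> norm_num)).trans
        (congrArg _ (congrArg _ (Complex.ext (by simp) (by simp))))⟩
  · have v0 : (th δ z).im ≠ 0 := mul_ne_zero (div_pos δ0 (mul_pos two_pos (rt_pos _))).ne'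
      (by simpa using hz)
    obtain ⟨ε, hε, hv⟩ : ∃ ε : ℝ, ε ^ 2 = 1 ∧ 0 < ε * (th δ z).im :=
      v0.lt_or_gt.elim (fun k => ⟨-1, by norm_num, by linarith⟩) fun k => ⟨1, by norm_num, by linarith⟩
    have e : ln 1 (-1) (- -Real.log (2 * (ε * (th δ z).im))) (th δ z) =
        ⟨2 * ε * ((th δ z).re * (th δ z).im), ε / 2⟩ := by
      have e0 : ε ≠ 0 := left_ne_zero_of_mul hv.ne'
      apply Complex.ext <;> simp only [ln, one_mul, neg_one_mul, neg_neg, Real.exp_neg,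
        Real.exp_log (mul_pos two_pos hv)]
      · ring
      · field_simp; linarith
    have b : |2 * ε * ((th δ z).re * (th δ z).im)| ≤ 2 * δ := by
      rw [abs_mul, abs_mul, show |ε| = 1 by rcases sq_eq_one_iff.1 hε with rfl | rfl <;> simp]
      simpa using th_prod δ0 z
    have := sq_le_sq' (abs_le.1 b).1 (abs_le.1 b).2
    rw [spec z _ (by rw [e, nlt]; simp only; nlinarith), e, d.al_flow]
    exact (hδ ε hε _ b).2
  · obtain ⟨z', k1, k2, k3⟩ := th_fwd (δ := δ) ht z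
    have e : ln 1 (-1) (-(t + L z)) (th δ z') = sq z := by
      rw [k3, ln_add]; congr 1; ring
    exact ⟨z', k1, k2, by rw [spec z' _ (e ▸ s3 z), e, d.add]⟩
  · rcases lt_trichotomy z.re 0 with k | k | k
    · obtain ⟨y, y1, y2⟩ := side (-1) (by norm_num) z (by linarith)
      exact Or.inr (Or.inr (by rw [y2, d.om_flow, (hδ _ (by norm_num) y y1).1]))
    · have e : sq z = ⟨0, (sq z).im⟩ := Complex.ext (by simp [sre, k]) rfl
      exact Or.inl (by simp only [B, d.om_flow]; rw [e, h.om_axis (by linarith [s2 z])])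
    · obtain ⟨y, y1, y2⟩ := side 1 (by norm_num) z (by linarith)
      exact Or.inr (Or.inl (by rw [y2, d.om_flow, (hδ _ (by norm_num) y y1).1]))

namespace Sp

theorem neg (h : Sp d s p q B) : Sp d s q p fun z => B (-z) where
  st := by simpa using h.st.affine (a := -1) (by simp) 0
  sd := h.sd
  ctr := by simpa using h.ctr
  core := by rw [core_neg]; exact h.core
  bw := fun z hz => h.bw _ (by simpa using hz)
  fwd := fun z t ht => by
    obtain ⟨z', k1, k2, k3⟩ := h.fwd (-z) t ht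
    exact ⟨-z', by simp [k1], by simpa using k2, by simpa using k3⟩
  fw := fun z => (h.fw (-z)).imp_right Or.symm
  top := fun O hO => by simpa using (h.bot O hO).imp fun R k z hz => k (-z) (by simpa using hz)
  bot := fun O hO => (h.top O hO).imp fun R k z hz => k (-z) hz
  mp := h.mq
  mq := h.mp

theorem ttop (h : Sp d s p q B) : Tendsto (fun x : ℝ => B x) atTop (𝓝 p) := fun O hO =>
  let ⟨R, k⟩ := h.top O hO
  mem_map.2 (eventually_atTop.2 ⟨R, fun x hx => k x (by simpa using hx)⟩)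

theorem tbot (h : Sp d s p q B) : Tendsto (fun x : ℝ => B x) atBot (𝓝 q) := fun O hO =>
  let ⟨R, k⟩ := h.bot O hO
  mem_map.2 (eventually_atBot.2 ⟨-R, fun x hx => k x (by simp; linarith)⟩)

theorem nmx (h : Sp d s p q B) (z : ℂ) : ¬ d.Mx (B z) := fun k => by
  have e := d.rev.om_crit k.1
  by_cases hz : z.im = 0
  · exact k.nsd ((e.symm.trans ((h.core _).1 (mem_core hz))) ▸ h.sd)
  · exact k.nmn (e ▸ h.bw z hz)

theorem flw (h : Sp d s p q B) {x x' : ℝ} (hx : 0 < x) (k : x ≤ x') :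
    ∃ t, 0 ≤ t ∧ d.Φ t (B x) = B x' := by
  have ht := Real.log_nonneg ((one_le_div hx).2 k)
  obtain ⟨z, k1, k2, k3⟩ := h.fwd x _ ht
  rw [Real.exp_log (div_pos (hx.trans_le k) hx), ofReal_re, div_mul_cancel₀ _ hx.ne'] at k1
  exact ⟨_, ht, k3.trans (congrArg B (Complex.ext k1 (by simpa using k2)))⟩

/-- the axis is an edge to a leaf -/
theorem lf (h : Sp d s p q B) (ne : p ≠ q) : Lf o B p q := by
  refine ⟨h.st, h.ttop, h.tbot, ?_⟩
  have hp := h.mp
  obtain ⟨ρ, hρ, k⟩ := Metric.mem_nhds_iff.1 (inter_mem (Metric.ball_mem_nhds (0 : ℂ) one_pos)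
    ((d.pos p hp.1 0 (by simp)).1.contMDiffAt.continuousAt.preimage_mem_nhds
      ((cpt_half (cont_axis h.st) h.tbot 1).isClosed.isOpen_compl.mem_nhds (by
        rw [d.ctr p hp.1]
        rintro (e | ⟨x, -, e⟩)
        · exact ne e
        · exact h.nmx x ((show B x = p from e) ▸ hp)))))
  have k1 : ∀ {u : ℂ}, ‖u‖ < ρ → ‖u‖ < 1 := fun hu =>
    mem_ball_zero_iff.1 (k (mem_ball_zero_iff.2 hu)).1
  have k2 : ∀ {u : ℂ} {x : ℝ}, ‖u‖ < ρ → B x = d.Q p u → 0 < x := fun hu e => by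
    by_contra j
    exact (k (mem_ball_zero_iff.2 hu)).2 (Or.inr ⟨_, (not_lt.1 j).trans zero_le_one, e⟩)
  obtain ⟨x₀, w, hw, e₀⟩ := (h.ttop.eventually (d.ball_nhds hp.1 hρ)).exists
  rw [mem_ball_zero_iff] at hw
  have w0 : w ≠ 0 := fun j => h.nmx x₀ (by rw [← e₀, j, d.ctr p hp.1]; exact hp)
  have cmp : ∀ {u v : ℂ} {x x' : ℝ}, ‖u‖ < ρ → ‖v‖ < ρ → B x = d.Q p u → B x' = d.Q p v → x ≤ x' →
      ∃ t : ℝ, v = Real.exp t * u := fun {u v x x'} hu hv e e' j => by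
    obtain ⟨t, ht, j'⟩ := h.flw (k2 hu e) j
    have j2 := (Dy.exp_norm ht u).trans_lt (k1 hu)
    rw [e, e', hp.lin (k1 hu) j2] at j'
    refine ⟨-t, (d.inj p hp.1 ?_ (mem_ball_zero_iff.2 (k1 hv)) j').symm⟩
    rwa [mem_ball_zero_iff, norm_mul, norm_real, Real.norm_of_nonneg (Real.exp_pos _).le]
  have ray : ∀ u : ℂ, ‖u‖ < ρ → (d.Q p u ∈ Prf6.core B ∪ {p} ↔ ∃ l : ℝ, 0 ≤ l ∧ u = l * w) := by
    refine fun u hu => ⟨?_, ?_⟩
    · rintro (⟨x, e⟩ | e)
      · rcases le_total x₀ x with j | j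
        · obtain ⟨t, ht⟩ := cmp hw hu e₀.symm e j
          exact ⟨_, (Real.exp_pos t).le, ht⟩
        · obtain ⟨t, ht⟩ := cmp hu hw e e₀.symm j
          refine ⟨_, (Real.exp_pos (-t)).le, ?_⟩
          rw [ht, ← mul_assoc, ← ofReal_mul, ← Real.exp_add]; simp
      · have := d.inj p hp.1 (mem_ball_zero_iff.2 (k1 hu))
          (Metric.mem_ball_self one_pos) (e.trans (d.ctr p hp.1).symm)
        exact ⟨0, le_rfl, by simpa using this⟩
    · rintro ⟨l, hl, rfl⟩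
      rcases hl.eq_or_lt with rfl | hl
      · exact Or.inr (by simpa using d.ctr p hp.1)
      · have j := hp.lin (k1 hw) (t := -Real.log l) (by
          have := k1 hu
          rwa [norm_mul, norm_real, Real.norm_of_nonneg hl.le, ← Real.exp_log hl,
            ← neg_neg (Real.log l)] at this)
        rw [neg_neg, Real.exp_log hl] at j
        exact Or.inl ((h.core _).2 (by rw [← j, d.al_flow, e₀]; exact (h.core _).1 ⟨x₀, rfl⟩))
  have nb : ∀ z : ℂ, ‖z‖ < 1 → ‖0 + -w * z‖ < ρ := fun z hz => by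
    rw [zero_add, norm_mul, norm_neg]
    nlinarith [norm_nonneg w]
  refine ⟨(fun z => d.Q p (0 + -w * z)) ∘ kap, st_kap (fun z hz => Pm.comp (g := d.Q p)
    (f := fun z => 0 + -w * z) (d.pos p hp.1 _ (k1 (nb z hz))) (pm_affine (neg_ne_zero.2 w0) 0 z))
    fun z hz z' hz' e => mul_left_cancel₀ (neg_ne_zero.2 w0) (add_left_cancel (d.inj p hp.1
      (mem_ball_zero_iff.2 (k1 (nb z (mem_ball_zero_iff.1 hz))))
      (mem_ball_zero_iff.2 (k1 (nb z' (mem_ball_zero_iff.1 hz')))) e)),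
    by simp [kap_zero, d.ctr p hp.1], fun z => (ray _ (nb _ (norm_kap z))).trans ⟨?_, fun j => ?_⟩⟩
  · rintro ⟨l, hl, e⟩
    have e' : kap z = -l := mul_left_cancel₀ w0 (by linear_combination -e)
    have e1 := congrArg re e'
    have e2 := congrArg im e'
    simp only [kap_re, kap_im, neg_re, neg_im, ofReal_re, ofReal_im] at e1 e2
    exact ⟨Real.arctan_eq_zero_iff.1 (by linarith), Real.arctan_strictMono.le_iff_le.1
      (by rw [Real.arctan_zero]; linarith)⟩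
  · have e1 : Real.arctan z.re ≤ 0 := by simpa using Real.arctan_strictMono.monotone j.2
    refine ⟨-(kap z).re, by rw [kap_re]; linarith, ?_⟩
    have : kap z = (kap z).re := Complex.ext (by simp) (by simp [kap_im, j.1])
    rw [this]; simp; ring

/-- thin strips are forward invariant -/
theorem stab (h : Sp d s p q B) {O : Set M} (hO : IsOpen O) (h1 : Prf6.core B ⊆ O) (hp : p ∈ O)
    (hq : q ∈ O) : ∃ N, IsOpen N ∧ d.Inv N ∧ N ⊆ O ∧ s ∈ N := by
  obtain ⟨R, hR⟩ := h.top O (hO.mem_nhds hp)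
  obtain ⟨R', hR'⟩ := h.bot O (hO.mem_nhds hq)
  obtain ⟨η, hη, k⟩ := (isCompact_Icc.image continuous_ofReal : IsCompact (ofReal '' Icc (-R') R)
    ).exists_thickening_subset_open (hO.preimage (cont_of_pm h.st.1))
    (by rintro _ ⟨x, -, rfl⟩; exact h1 ⟨x, rfl⟩)
  refine ⟨B '' {z | |z.im| < η}, h.st.isOpenEmbedding.isOpenMap _
    (isOpen_lt continuous_im.abs continuous_const), ?_, ?_, 0, by simpa using hη, h.ctr⟩
  · rintro t ht _ ⟨z, hz, rfl⟩
    obtain ⟨z', -, k2, k3⟩ := h.fwd z t ht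
    exact ⟨z', k2.trans_lt hz, k3.symm⟩
  · rintro _ ⟨z, hz, rfl⟩
    rcases le_total R z.re with j | j
    · exact hR z j
    rcases le_total R' (-z.re) with j' | j'
    · exact hR' z j'
    refine k (Metric.mem_thickening_iff.2 ⟨z.re, ⟨z.re, ⟨by linarith, j⟩, rfl⟩, ?_⟩)
    rw [dist_of_re_eq (by simp)]
    simpa [Real.dist_eq] using hz

end Sp

end Crest.Agent.X212.Cut44
end
end

-- ▼ part X212/Cut44/Eta
section

/-!
# Row 212, PERF, CUT (helper44): the height function of a proper arc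
-/

set_option autoImplicit false
set_option linter.unusedSectionVars false
noncomputable section
open Set Filter Topology Function Complex
open scoped ContDiff Manifold

namespace Crest.Agent.X212.Cut44

open Crest.Agent.X212.Prf6

variable {M : Type*} [TopologicalSpace M] [ChartedSpace ℂ M] [IsManifold IC ∞ M] [T2Space M]
  [CompactSpace M] {o : Or M}

theorem cpt_box (R : ℝ) : IsCompact {z : ℂ | |z.re| ≤ R ∧ |z.im| ≤ 1} :=
  Metric.isCompact_of_isClosed_isBounded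
    ((isClosed_le continuous_re.abs continuous_const).inter
      (isClosed_le continuous_im.abs continuous_const))
    ((Metric.isBounded_closedBall (x := (0 : ℂ)) (r := R + 1)).subset fun z hz => by
      simpa using (norm_le_abs_re_add_abs_im z).trans (add_le_add hz.1 hz.2))

theorem closed_union {Z : Set M} {B : ℂ → M} (cl : IsClosed Z) (st : St o B)
    (hlim : ∀ O ∈ 𝓝ˢ Z, ∃ R, ∀ z : ℂ, |z.im| ≤ 1 → R ≤ |z.re| → B z ∈ O) {F : Set ℂ}
    (hF : IsClosed F) (h1 : ∀ z ∈ F, |z.im| ≤ 1) : IsClosed (Z ∪ B '' F) := by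
  refine isClosed_iff_nhds.2 fun y hy => by_contra fun hn => ?_
  obtain ⟨O, hO, V, hV, hd⟩ := (Filter.disjoint_iff).1
    (disjoint_nhdsSet_nhds.2 (by rw [cl.closure_eq]; exact fun k => hn (Or.inl k)) :
      Disjoint (𝓝ˢ Z) (𝓝 y))
  obtain ⟨R, hR⟩ := hlim O hO
  have hK := (((cpt_box R).inter_left hF).image (cont_of_pm st.1)).isClosed
  obtain ⟨w, ⟨w1, w2⟩, w3 | ⟨z, hz, rfl⟩⟩ := hy _ (inter_mem hV (hK.isOpen_compl.mem_nhds
    fun k => hn (Or.inr (image_mono inter_subset_left k))))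
  · exact disjoint_left.1 hd (subset_of_mem_nhdsSet hO w3) w1
  · exact disjoint_left.1 hd (hR z (h1 z hz) (not_lt.1 fun k => w2 ⟨z, ⟨hz, k.le, h1 z hz⟩, rfl⟩)) w1

/-- a strip whose two ends run into `Z` is an arc -/
theorem exists_arc {Z : Set M} {B : ℂ → M} (cl : IsClosed Z) (conn : IsPreconnected Z)
    (st : St o B) (off : ∀ z, B z ∉ Z)
    (hlim : ∀ O ∈ 𝓝ˢ Z, ∃ R, ∀ z : ℂ, |z.im| ≤ 1 → R ≤ |z.re| → B z ∈ O)
    (cc : IsPreconnected (Z ∪ core B)ᶜ) : ∃ η, Arc o Z B η := by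
  obtain ⟨η₀, s0, sm0, nn0⟩ := cl.isOpen_compl.exists_contMDiff_support_eq (n := (⊤ : ℕ∞)) IC
  have z0 : ∀ x, η₀ x = 0 ↔ x ∈ Z := fun x => by
    rw [← not_iff_not]; exact Set.ext_iff.1 s0 x
  let χ : ℂ → ℝ := fun z => Real.smoothTransition (1 - z.im ^ 2)
  let g : ℝ → ℝ := fun s => (1 + s ^ 2)⁻¹
  have gp : ∀ s, 0 < g s := fun s => by positivity
  have c0 : ∀ z, 0 ≤ χ z := fun z => Real.smoothTransition.nonneg _
  have c1 : ∀ z, χ z ≤ 1 := fun z => Real.smoothTransition.le_one _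
  have c2 : ∀ z : ℂ, ¬ |z.im| ≤ 1 → χ z = 0 := fun z hz =>
    Real.smoothTransition.zero_of_nonpos (by nlinarith [sq_abs z.im, not_le.1 hz])
  let η : M → ℝ := fun x => η₀ x + extend B (fun z => χ z * (g z.re - η₀ (B z))) 0 x
  have e1 : ∀ z, η (B z) = (1 - χ z) * η₀ (B z) + χ z * g z.re := fun z => by
    simp only [η, st.2.extend_apply]; ring
  have e2 : ∀ x ∉ B '' {z | |z.im| ≤ 1}, η x = η₀ x := fun x hx => by
    by_cases h : ∃ z, B z = x
    · obtain ⟨z, rfl⟩ := h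
      rw [e1, c2 z fun k => hx ⟨z, k, rfl⟩]; ring
    · simp only [η, extend_apply' _ _ _ h]; simp
  have e3 : ∀ s : ℝ, η (B s) = g s := fun s => by
    rw [e1]; simp [χ]
  have le : ∀ z (a : ℝ), η₀ (B z) < a → g z.re < a → η (B z) < a := fun z a h1 h2 => by
    rw [e1]
    have k1 := mul_le_mul_of_nonneg_left (le_max_left (η₀ (B z)) (g z.re)) (sub_nonneg.2 (c1 z))
    have k2 := mul_le_mul_of_nonneg_left (le_max_right (η₀ (B z)) (g z.re)) (c0 z)
    have k3 := max_lt h1 h2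
    nlinarith
  have ps : ∀ z, 0 < η (B z) := fun z => by
    rw [e1]
    have k0 : 0 < η₀ (B z) := (nn0 _).lt_of_ne' fun k => off z ((z0 _).1 k)
    have k1 := mul_le_mul_of_nonneg_left (min_le_left (η₀ (B z)) (g z.re)) (sub_nonneg.2 (c1 z))
    have k2 := mul_le_mul_of_nonneg_left (min_le_right (η₀ (B z)) (g z.re)) (c0 z)
    have k3 := lt_min k0 (gp z.re)
    nlinarith
  have out : ∀ x, (¬ ∃ z, B z = x) → η x = η₀ x := fun x h => e2 x fun ⟨z, _, k⟩ => h ⟨z, k⟩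
  have nn : ∀ x, 0 ≤ η x := fun x => by
    by_cases h : ∃ z, B z = x
    · obtain ⟨z, rfl⟩ := h
      exact (ps z).le
    · exact out x h ▸ nn0 x
  have zero : ∀ x, η x = 0 ↔ x ∈ Z := fun x => by
    by_cases h : ∃ z, B z = x
    · obtain ⟨z, rfl⟩ := h
      exact iff_of_false (ps z).ne' (off z)
    · exact out x h ▸ z0 x
  have gs : ContDiff ℝ ∞ g := ContDiff.inv (by fun_prop) fun s => by positivity
  have gl : Tendsto g (cocompact ℝ) (𝓝 0) := by
    have := tendsto_inv_atTop_zero.comp (tendsto_atTop_add_const_left _ (1 : ℝ)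
      ((tendsto_pow_atTop two_ne_zero).comp (tendsto_norm_cocompact_atTop (E := ℝ))))
    refine this.congr fun s => by simp [g]
  have sm : ∀ x ∉ Z, ContMDiffAt IC IR ∞ η x := fun x hx => by
    by_cases h : ∃ z, B z = x
    · obtain ⟨z, rfl⟩ := h
      refine Cyl58.contMDiffAt_of_comp (st.1 z).1 ?_
      have k1 : ContMDiff IC IR ∞ χ := contMDiff_iff_contDiff.2
        (Real.smoothTransition.contDiff.comp (contDiff_const.sub (imCLM.contDiff.pow 2)))
      have k2 : ContMDiff IC IR ∞ fun z : ℂ => g z.re :=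
        contMDiff_iff_contDiff.2 (gs.comp reCLM.contDiff)
      have k3 : ContDiff ℝ ∞ fun z => η₀ (B z) := contMDiff_iff_contDiff.1 (sm0.comp (sm_of_pm st.1))
      rw [show η ∘ B = _ from funext e1]
      exact contMDiff_iff_contDiff.2 (((contDiff_const.sub (contMDiff_iff_contDiff.1 k1)).mul k3).add
        ((contMDiff_iff_contDiff.1 k1).mul (contMDiff_iff_contDiff.1 k2))) z
    · refine (sm0 x).congr_of_eventuallyEq ?_
      filter_upwards [(closed_union cl st hlim (F := {z | |z.im| ≤ 1}) (isClosed_le (by fun_prop)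
        continuous_const) fun _ k => k).isOpen_compl.mem_nhds
        (fun k => k.elim hx fun ⟨z, _, k⟩ => h ⟨z, k⟩)] with y hy
      exact e2 y fun k => hy (Or.inr k)
  refine ⟨η, cl, conn, st, off, ?_, cc, continuous_iff_continuousAt.2 fun x => ?_, nn, zero,
    fun x hx => (sm x hx).contMDiffWithinAt, ⟨1, fun t ht => ?_⟩, gl.congr fun s => (e3 s).symm⟩
  · convert closed_union cl st hlim (F := {z | z.im = 0}) (isClosed_eq (by fun_prop)
      continuous_const) fun z k => by rw [show z.im = 0 from k]; simp using 2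
    ext y
    exact ⟨fun ⟨s, k⟩ => ⟨s, by simp, k⟩, fun ⟨z, k, e⟩ => e ▸ mem_core k⟩
  · by_cases hx : x ∈ Z
    swap
    · exact (sm x hx).continuousAt
    rw [ContinuousAt, (zero x).2 hx]
    refine tendsto_order.2 ⟨fun a ha => Eventually.of_forall fun y => ha.trans_le (nn y),
      fun a ha => ?_⟩
    obtain ⟨K, hK, h⟩ := mem_cocompact.1 (gl.eventually (gt_mem_nhds ha))
    obtain ⟨R, hR⟩ := hK.isBounded.exists_norm_le
    filter_upwards [((cpt_box R).image (cont_of_pm st.1)).isClosed.isOpen_compl.mem_nhds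
      (fun ⟨z, _, k⟩ => off z (k ▸ hx)), sm0.continuous.continuousAt.eventually
      (gt_mem_nhds (((z0 x).2 hx).symm ▸ ha : η₀ x < a))] with y y1 y2
    by_cases hy : y ∈ B '' {z | |z.im| ≤ 1}
    · obtain ⟨z, hz, rfl⟩ := hy
      exact le z a y2 (h fun k => y1 ⟨z, ⟨hR _ k, hz⟩, rfl⟩)
    · rwa [e2 y hy]
  · have hd : HasDerivAt g (-(2 * t) / (1 + t ^ 2) ^ 2) t := by
      have := ((hasDerivAt_pow 2 t).const_add 1).inv (by positivity)
      norm_num at this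
      exact this
    rw [show (fun s : ℝ => η (B s)) = g from funext e3, hd.deriv, ← mul_div_assoc]
    exact div_neg_of_neg_of_pos (by nlinarith [sq_abs t]) (by positivity)

end Crest.Agent.X212.Cut44
end
end

-- ▼ part X212/Cut44/Main
section

/-!
# Row 212, PERF, CUT (helper44): the cut system of a gradient-like flow

A spanning tree of unstable manifolds, a dual spanning tree of stable manifolds, and the unstable
manifolds of the remaining saddles as arcs.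
-/

set_option autoImplicit false
set_option linter.unusedSectionVars false
noncomputable section
open Set Filter Topology Function Complex
open scoped ContDiff Manifold

namespace Crest.Agent.X212.Cut44

open Crest.Agent.X212.Prf6

variable {M : Type*} [TopologicalSpace M] [ChartedSpace ℂ M] [IsManifold IC ∞ M] [T2Space M]
  [CompactSpace M] {o : Or M}

namespace Dy

/-- sinks and unstable manifolds of the saddles in `S` -/
def Zs (d : Dy o) (S : Set M) : Set M := {y | d.Mx y ∨ d.rev.om y ∈ S}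

/-- basins of the sinks and stable manifolds of the saddles in `S` -/
def Ws (d : Dy o) (S : Set M) : Set M := {y | d.Mx (d.om y) ∨ d.om y ∈ S}

variable {d : Dy o} {S S' : Set M} {s p q x : M} {B : ℂ → M}

theorem compl_Zs (hS : ∀ s ∈ S, d.Sd s) : (d.Zs S)ᶜ = d.rev.Ws {s | d.Sd s ∧ s ∉ S} := by
  ext y
  constructor
  · intro h
    rcases tri (d := d) (d.rev.om_mem y) with k | k | k
    · exact (h (Or.inl (eq_of_mx k ▸ k))).elim
    · exact Or.inl k
    · exact Or.inr ⟨k, fun j => h (Or.inr j)⟩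
  · rintro (k | k) (j | j)
    · exact j.nmn (d.rev.om_crit j.1 ▸ k)
    · exact k.nsd (d.rev_sd ▸ hS _ j)
    · exact j.nsd (d.rev.om_crit j.1 ▸ k.1)
    · exact k.2 j

theorem open_of' {A : M → Prop} (h : ∀ s, A s → d.Mx s ∨ ∃ p q B, Sp d s p q B ∧ A p ∧ A q) :
    IsOpen {y | A (d.om y)} := by
  refine open_of fun s hs => (h s hs).elim (fun k => k.ev.mono fun y e _ => e.symm ▸ hs) ?_
  rintro ⟨p, q, B, k, hp, hq⟩
  filter_upwards [k.st.isOpenEmbedding.isOpen_range.mem_nhds ⟨0, k.ctr⟩]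
  rintro _ ⟨z, rfl⟩ -
  rcases k.fw z with e | e | e <;> rwa [e]

theorem open_Ws (hS : ∀ s ∈ S, d.Sd s) : IsOpen (d.Ws S) :=
  open_of' (A := fun p => d.Mx p ∨ p ∈ S) fun s hs => hs.imp_right fun k =>
    let ⟨p, q, B, h⟩ := exists_sp (hS s k)
    ⟨p, q, B, h, Or.inl h.mp, Or.inl h.mq⟩

theorem closed_Zs (hS : ∀ s ∈ S, d.Sd s) : IsClosed (d.Zs S) := by
  rw [← isOpen_compl_iff, compl_Zs hS]
  exact open_Ws fun s k => d.rev_sd ▸ k.1

theorem Zs_insert (h : Sp d s p q B) : d.Zs (insert s S) = d.Zs S ∪ core B := by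
  ext y
  simp only [Zs, mem_ofPred_eq, mem_insert_iff, mem_union, h.core]
  tauto

theorem Zs_sub (hS : ∀ s ∈ S, d.Sd s) : d.Zs S ⊆ d.Ws S := by
  rintro y (k | k)
  · exact Or.inl ((d.om_crit k.1).symm ▸ k)
  · by_cases e : y = d.rev.om y
    · exact Or.inr (by rw [e, d.om_crit (hS _ k).1]; exact k)
    · exact Or.inl ((hS _ k).end_mx rfl e)

theorem conn_Zs (h : IsPreconnected (d.Zs S)) (hx : d.Mx x) (hs : S ⊆ S') (hS : ∀ s ∈ S', d.Sd s) :
    IsPreconnected (d.Zs S') := by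
  have m : d.Zs S ⊆ d.Zs S' := fun y k => k.imp_right fun j => hs j
  refine isPreconnected_of_forall x ?_
  rintro y (k | k)
  · exact ⟨_, m, Or.inl hx, Or.inl k, h⟩
  · obtain ⟨p, q, B, hB⟩ := exists_sp (hS _ k)
    exact ⟨_, union_subset m fun z hz => Or.inr (((hB.core z).1 hz).symm ▸ k), Or.inl (Or.inl hx),
      Or.inr ((hB.core y).2 rfl), conn_step hB.st h (Or.inl hB.mp) hB.ttop⟩

theorem conn_Ws (h : IsPreconnected (d.Zs S)) (hx : d.Mx x) (hS : ∀ s ∈ S, d.Sd s) :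
    IsPreconnected (d.Ws S) := by
  refine isPreconnected_of_forall x fun y hy => ⟨d.Zs S ∪ range fun t => d.Φ t y,
    union_subset (Zs_sub hS) ?_, Or.inl (Or.inl hx), Or.inr ⟨0, d.zero y⟩, conn_curve (d.orb y) h (hy.imp_right fun k => ?_) (d.om_lim y)⟩
  · rintro _ ⟨t, rfl⟩
    simpa only [Ws, mem_ofPred_eq, d.om_flow] using hy
  · rwa [d.rev.om_crit (d.om_mem y)]

theorem dense (hS : ∀ s ∈ S', d.Sd s) : d.rev.Ws S' ⊆ closure (d.rev.Ws S) := by
  rintro y (k | k)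
  · exact subset_closure (Or.inl k)
  · obtain ⟨p, q, B, hB⟩ := exists_sp (hS _ k)
    obtain ⟨t, ht⟩ := (hB.core y).2 rfl
    rw [← ht]
    exact map_mem_closure (s := {z : ℂ | 0 < z.im}) (cont_of_pm hB.st.1)
      (by rw [closure_setOfPred_lt_im]; simp) fun z hz => Or.inl (hB.bw z (ne_of_gt hz))

theorem absorb (hS : ∀ s ∈ S, d.Sd s) {O L : Set M} (hO : IsOpen O) (h : d.Zs S ⊆ O)
    (hL : IsCompact L) (h' : L ⊆ d.Ws S) : ∃ T, ∀ y ∈ L, d.Φ T y ∈ O := by
  obtain ⟨T, hT⟩ := unif (d := d) (N := ⋃₀ {N | IsOpen N ∧ d.Inv N ∧ N ⊆ O})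
    (isOpen_sUnion fun N k => k.1) (fun t ht y ⟨N, k, hy⟩ => ⟨N, k, k.2.1 t ht y hy⟩) hL
    fun y hy => by
      rcases h' hy with k | k
      · obtain ⟨N, n1, n2, n3, n4⟩ := k.stab (hO.mem_nhds (h (Or.inl k)))
        exact ⟨N, ⟨n1, n2, n3⟩, n4⟩
      · obtain ⟨p, q, B, hB⟩ := exists_sp (hS _ k)
        obtain ⟨N, n1, n2, n3, n4⟩ := hB.stab hO
          (fun z hz => h (Or.inr (((hB.core z).1 hz).symm ▸ k))) (h (Or.inl hB.mp)) (h (Or.inl hB.mq))
        exact ⟨N, ⟨n1, n2, n3⟩, n4⟩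
  exact ⟨T, fun y hy => let ⟨_, k, j⟩ := hT T le_rfl y hy; k.2.2 j⟩

/-- spanning trees -/
theorem span [Nonempty M] {E : Set M} (hE : ∀ s ∈ E, d.Sd s) (hc : IsPreconnected (d.Ws E)) :
    ∃ x S, S ⊆ E ∧ d.Mx x ∧ Tr o x (d.Zs S) := by
  obtain ⟨p₀, h₀⟩ := d.exists_mx
  obtain ⟨P, ⟨hP, x, hx, S, hS, T⟩, mx⟩ := Set.Finite.exists_maximal
    (s := {P : Set M | (∀ p ∈ P, d.Mx p) ∧ ∃ x ∈ P, ∃ S ⊆ E, Tr o x (P ∪ {y | d.rev.om y ∈ S})})
    (d.C.finite_toSet.powerset.subset fun P k p hp => (k.1 p hp).1)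
    ⟨{p₀}, by simpa using h₀, p₀, rfl, ∅, empty_subset _, by simpa using Tr.pt⟩
  have mem : ∀ p, d.Mx p → p ∈ P ∪ {y | d.rev.om y ∈ S} → p ∈ P := fun p hp k =>
    k.resolve_right fun j => hp.nsd (hE _ (hS (d.rev.om_crit hp.1 ▸ j)))
  have mixed : ∀ s p q B, Sp d s p q B → s ∈ E → q ∈ P → p ∈ P := fun s p q B h hs hq => by
    by_contra hp
    have hsS : s ∉ S := fun k => hp (mem p h.mp (T.isCompact.isClosed.mem_of_tendsto h.ttop
      (Eventually.of_forall fun t => Or.inr (show d.rev.om _ ∈ S from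
        ((h.core _).1 ⟨t, rfl⟩).symm ▸ k))))
    have T' := T.leaf (h.lf fun e => hp (e ▸ hq)) (Or.inl hq) (disjoint_left.2 (by
      rintro y (⟨t, rfl⟩ | rfl) k
      · exact k.elim (fun j => h.nmx t (hP _ j)) fun j => hsS ((h.core _).1 ⟨t, rfl⟩ ▸ j)
      · exact hp (mem _ h.mp k)))
    refine hp (mx (y := insert p P) ⟨?_, x, Or.inr hx, insert s S, insert_subset hs hS, ?_⟩
      (subset_insert _ _) (mem_insert _ _))
    · rintro _ (rfl | k)
      · exact h.mp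
      · exact hP _ k
    · convert T' using 1
      ext y
      simp only [mem_ofPred_eq, mem_insert_iff, mem_union, h.core, mem_singleton_iff]
      tauto
  have all : ∀ p, d.Mx p → p ∈ P := fun p hp => by
    by_contra hn
    choose! P₁ P₂ Bs hB using fun s (h : d.Sd s) => exists_sp h
    obtain ⟨y, -, k1, k2⟩ := hc _ _
      (open_of' (A := fun s => s ∈ P ∨ (s ∈ E ∧ P₁ s ∈ P)) fun s hs => hs.imp (hP s) fun k =>
        ⟨_, _, _, hB s (hE s k.1), Or.inl k.2, Or.inl (mixed _ _ _ _ (hB s (hE s k.1)).neg k.1 k.2)⟩)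
      (open_of' (A := fun s => (d.Mx s ∧ s ∉ P) ∨ (s ∈ E ∧ P₁ s ∉ P)) fun s hs =>
        hs.imp And.left fun k => ⟨_, _, _, hB s (hE s k.1), Or.inl ⟨(hB s (hE s k.1)).mp, k.2⟩,
          Or.inl ⟨(hB s (hE s k.1)).mq, fun j => k.2 (mixed _ _ _ _ (hB s (hE s k.1)) k.1 j)⟩⟩)
      (fun y hy => by
        have : d.Mx (d.om y) ∨ d.om y ∈ E := hy
        simp only [mem_union, mem_ofPred_eq]
        tauto)
      ⟨x, Zs_sub hE (Or.inl (hP x hx)), Or.inl ((d.om_crit (hP x hx).1).symm ▸ hx)⟩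
      ⟨p, Zs_sub hE (Or.inl hp), Or.inl ((d.om_crit hp.1).symm ▸ ⟨hp, hn⟩)⟩
    rcases k1 with k1 | k1 <;> rcases k2 with k2 | k2
    · exact k2.2 k1
    · exact (hP _ k1).nsd (hE _ k2.1)
    · exact k2.1.nsd (hE _ k1.1)
    · exact k2.2 k1.2
  refine ⟨x, S, hS, hP x hx, ?_⟩
  convert T using 1
  ext y
  exact or_congr_left ⟨all y, hP y⟩

theorem cut [Nonempty M] (d : Dy o) (hc : IsPreconnected (univ : Set M)) :
    ∃ x, Nonempty (Cut o x) := by
  obtain ⟨x, S, hS, mx, T⟩ := span (d := d) (E := {s | d.Sd s}) (fun _ k => k) (by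
    convert fin_compl o hc (d.C.finite_toSet.subset fun p (k : d.rev.Mx p) => k.1) using 1
    ext y
    refine ⟨fun k j => ?_, fun k => ?_⟩
    · have e := d.om_crit j.1
      exact k.elim (fun i => i.nmn (e.symm ▸ j)) fun i => Mx.nsd (d := d.rev) j (d.rev_sd ▸ e ▸ i)
    · rcases tri (d.om_mem y) with j | j | j
      · exact Or.inl j
      · exact (k (eq_of_mn j ▸ j)).elim
      · exact Or.inr j)
  obtain ⟨x', S', hS', mx', T'⟩ := span (d := d.rev) (E := {s | d.Sd s ∧ s ∉ S})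
    (fun _ k => d.rev_sd ▸ k.1) (compl_Zs hS ▸ T.compl hc)
  have sd' : ∀ s ∈ S', d.rev.Sd s := fun s k => d.rev_sd ▸ (hS' k).1
  have cW := conn_Ws T'.conn mx' sd'
  have oW := open_Ws sd'
  obtain ⟨n, e, e1, e2⟩ := (d.C.finite_toSet.subset
    fun s (k : d.Sd s ∧ s ∉ S ∧ s ∉ S') => k.1.1).fin_param
  have he : ∀ i, d.Sd (e i) ∧ e i ∉ S ∧ e i ∉ S' := fun i => e2.subset ⟨i, rfl⟩
  let A : ℕ → Set M := fun j => S ∪ e '' {i | i.val < j}
  have sd : ∀ j, ∀ s ∈ A j, d.Sd s := by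
    rintro j s (k | ⟨i, -, rfl⟩)
    · exact hS k
    · exact (he i).1
  have sub : ∀ j, S' ⊆ {s | d.Sd s ∧ s ∉ A j} := fun j s k => ⟨(hS' k).1, by
    rintro (i | ⟨i, -, rfl⟩)
    · exact (hS' k).2 i
    · exact (he i).2.2 k⟩
  have step : ∀ j, ∃ B η, j < n → Arc o (d.Zs (A j)) B η ∧ d.Zs (A (j + 1)) = d.Zs (A j) ∪ core B := by
    intro j
    by_cases hj : j < n
    swap
    · exact ⟨fun _ => x, fun _ => 0, fun k => absurd k hj⟩
    obtain ⟨p, q, B, hB⟩ := exists_sp (he ⟨j, hj⟩).1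
    have eA : d.Zs (A (j + 1)) = d.Zs (A j) ∪ core B := by
      rw [← Zs_insert hB]
      congr 1
      simp only [A]
      rw [← union_insert, ← image_insert_eq]
      congr 2
      ext i
      simp only [mem_ofPred_eq, mem_insert_iff, Fin.ext_iff]
      omega
    obtain ⟨η, hη⟩ := exists_arc (closed_Zs (sd j)) (conn_Zs T.conn mx subset_union_left (sd j)) hB.st
      (fun z k => k.elim (hB.nmx z) fun k => by
        by_cases hz : z.im = 0
        · rw [(hB.core _).1 (mem_core hz)] at k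
          rcases k with k | ⟨i, k, k'⟩
          · exact (he _).2.1 k
          · rw [e1 k'] at k
            exact lt_irrefl j k
        · exact (hB.bw z hz).nsd (d.rev_sd ▸ sd j _ k))
      (fun O hO => by
        obtain ⟨R, hR⟩ := hB.top O (nhds_le_nhdsSet (show p ∈ d.Zs (A j) from Or.inl hB.mp) hO)
        obtain ⟨R', hR'⟩ := hB.bot O (nhds_le_nhdsSet (show q ∈ d.Zs (A j) from Or.inl hB.mq) hO)
        exact ⟨max R R', fun z _ k => (le_abs.1 k).elim (fun i => hR z ((le_max_left _ _).trans i))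
          fun i => hR' z ((le_max_right _ _).trans i)⟩)
      (by
        rw [← eA, compl_Zs (sd _)]
        exact cW.subset_closure (fun y k => k.imp_right fun i => sub _ i) (dense fun s k => k.1))
    exact ⟨B, η, fun _ => ⟨hη, eA⟩⟩
  choose B η h using step
  have last : (d.Zs (A n))ᶜ = d.rev.Ws S' := by
    rw [compl_Zs (sd n)]
    congr 1
    refine Subset.antisymm (fun s k => by_contra fun j => ?_) (sub n)
    obtain ⟨i, rfl⟩ := e2.superset ⟨k.1, fun i => k.2 (Or.inl i), j⟩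
    exact k.2 (Or.inr ⟨i, i.2, rfl⟩)
  refine ⟨x, ⟨⟨n, fun j => d.Zs (A j), B, η, closed_Zs (sd 0), Or.inl mx, fun j k => (h j k).1,
    fun j k => (h j k).2, fun O hO => ?_, ?_⟩⟩⟩
  · obtain ⟨φ, f1, -, f3, f4⟩ := T.shrink univ O isOpen_univ (subset_univ _) hO
    exact ⟨φ, f1, f3, by simpa [A] using f4⟩
  · simp only [last]
    obtain ⟨D, hD, d0, d1⟩ := exists_st o x' (oW.mem_nhds (Zs_sub sd' T'.mem))
    obtain ⟨ψ, f1, f2, -, f4⟩ := T'.shrink _ (range D) oW (Zs_sub sd')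
      (hD.isOpenEmbedding.isOpen_range.mem_nhds ⟨0, d0⟩)
    refine ⟨D, hD, d1, fun L hL hs => ?_⟩
    obtain ⟨τ, hτ⟩ := absorb sd' (hD.isOpenEmbedding.isOpen_range.preimage (G_cont (f1.mem 1)))
      (image_subset_iff.1 f4) hL hs
    refine ⟨fun t => ψ t * d.rev.Φ (t * τ), f1.mul (d.rev.iso.reparam (by fun_prop) (by simp)),
      fun t => ?_, ?_⟩
    · rintro _ ⟨y, hy, rfl⟩
      refine (mem_iff_of_fix (f2 t) _).2 ?_
      simpa only [Ws, mem_ofPred_eq, d.rev.om_flow] using hs hy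
    · rintro _ ⟨y, hy, rfl⟩
      simpa using hτ y hy

end Dy

/-- CUT -/
theorem cutS : CutS := fun _ m hn hc => (ofMo m hn).cut hc

end Crest.Agent.X212.Cut44
end
end

-- ▼ part X212/Mor94/Upd
section

/-!
# Row 212, PERF-MORSE (helper94): changing the field of a `Mo`, the planar perturbation
-/

set_option autoImplicit false
set_option linter.unusedSectionVars false
noncomputable section
open Set Filter Topology Function Metric
open scoped ContDiff Manifold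

namespace Crest.Agent.X212.Mor94
open Prf6 Flo26

theorem fderiv_quad (k c a b : ℝ) (z w : ℂ) :
    fderiv ℝ (fun z : ℂ => k + c * (a * z.re ^ 2 + b * z.im ^ 2)) z w =
      c * (2 * a * z.re * w.re + 2 * b * z.im * w.im) := by
  have h1 := (Complex.reCLM.hasFDerivAt (x := z)).pow 2
  have h2 := (Complex.imCLM.hasFDerivAt (x := z)).pow 2
  have h3 := (((h1.const_mul a).add (h2.const_mul b)).const_mul c).const_add k
  have h4 : fderiv ℝ (fun z : ℂ => k + c * (a * z.re ^ 2 + b * z.im ^ 2)) z = _ := h3.fderiv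
  rw [h4]
  simp
  ring

variable {M : Type*} [TopologicalSpace M] [ChartedSpace ℂ M] [IsManifold IC ∞ M] [T2Space M]
  [CompactSpace M] {o : Or M} (m : Mo o) {p q x : M}

theorem df_Q (hp : p ∈ m.C) {z : ℂ} (hz : z ∈ ball (0 : ℂ) 1) (w : ℂ) :
    df m.f (m.Q p z) (dQ (m.Q p) z w) =
      m.c p * (2 * m.a p * z.re * w.re + 2 * m.b p * z.im * w.im) := by
  rw [(ch m hp).df_dQ hz ((m.smf _).mdifferentiableAt (by simp)), ← fderiv_quad (m.f p)]
  refine DFunLike.congr_fun (Filter.EventuallyEq.fderiv_eq ?_) w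
  filter_upwards [isOpen_ball.mem_nhds hz] with u hu using m.fQ p hp u (mem_ball_zero_iff.1 hu)

/-- new field, chart at `p` rescaled -/
theorem exists_upd (hp : p ∈ m.C) {l : ℝ} (hl : 0 < l) (hl1 : l ≤ 1)
    {v : (x : M) → TangentSpace IC x} (hv : SmV IC v) (up : ∀ x ∉ m.C, 0 < df m.f x (v x))
    (h1 : ∀ q ∈ m.C, q ≠ p → ∀ z : ℂ, ‖z‖ < 1 → v (m.Q q z) = m.v (m.Q q z))
    (h2 : ∀ z : ℂ, ‖z‖ < l → v (m.Q p z) = m.v (m.Q p z)) :
    ∃ m' : Mo o, m'.f = m.f ∧ m'.v = v ∧ m'.C = m.C ∧ m'.a = m.a ∧ m'.b = m.b ∧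
      (∀ q ≠ p, m'.Q q = m.Q q ∧ m'.c q = m.c q) ∧ (∀ z, m'.Q p z = m.Q p (l • z)) ∧
      m'.c p = l ^ 2 * m.c p := by
  classical
  have hn : ∀ z : ℂ, ‖z‖ < 1 → ‖l • z‖ < l := fun z hz => by
    rw [norm_smul, Real.norm_of_nonneg hl.le]; nlinarith
  have hn1 : ∀ z : ℂ, ‖z‖ < 1 → ‖l • z‖ < 1 := fun z hz => (hn z hz).trans_le hl1
  let Q : M → ℂ → M := update m.Q p fun z => m.Q p (l • z)
  have Qp : Q p = fun z => m.Q p (l • z) := update_self _ _ _
  have Qq : ∀ q ≠ p, Q q = m.Q q := fun q hq => update_of_ne hq _ _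
  have sub : ∀ q, Q q '' ball 0 1 ⊆ m.Q q '' ball 0 1 := fun q => by
    by_cases hq : q = p
    · subst hq
      rintro _ ⟨z, hz, rfl⟩
      exact ⟨l • z, mem_ball_zero_iff.2 (hn1 z (mem_ball_zero_iff.1 hz)), by rw [Qp]⟩
    · rw [Qq q hq]
  refine ⟨⟨m.f, v, m.C, Q, m.a, m.b, update m.c p (l ^ 2 * m.c p), fun q hq => ?_, m.smf, hv, up,
    m.ab, fun q hq z hz => ?_, fun q hq => ?_, fun q hq => ?_,
    fun q hq r hr hqr => (m.dis q hq r hr hqr).mono (sub q) (sub r), fun q hq z hz => ?_,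
    fun q hq z hz => ?_⟩, rfl, rfl, rfl, rfl, rfl,
    fun q hq => ⟨Qq q hq, update_of_ne hq _ _⟩, fun z => congrFun Qp z,
    update_self p (l ^ 2 * m.c p) m.c⟩
  · by_cases h : q = p
    · subst h; rw [update_self]; exact mul_pos (by positivity) (m.cpos q hq)
    · rw [update_of_ne h]; exact m.cpos q hq
  · by_cases h : q = p
    · subst h; rw [Qp]; exact (m.pos q hq _ (hn1 z hz)).comp (pm_scale hl.ne' z)
    · rw [Qq q h]; exact m.pos q hq z hz
  · by_cases h : q = p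
    · subst h
      rw [Qp]
      intro z hz w hw he
      exact smul_right_injective ℂ hl.ne' (m.inj q hq
        (mem_ball_zero_iff.2 (hn1 z (mem_ball_zero_iff.1 hz)))
        (mem_ball_zero_iff.2 (hn1 w (mem_ball_zero_iff.1 hw))) he)
    · rw [Qq q h]; exact m.inj q hq
  · by_cases h : q = p
    · subst h; rw [Qp]; simpa using m.ctr q hq
    · rw [Qq q h]; exact m.ctr q hq
  · by_cases h : q = p
    · subst h
      rw [Qp, update_self, m.fQ q hq _ (hn1 z hz)]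
      simp only [Complex.smul_re, Complex.smul_im, smul_eq_mul]
      ring
    · rw [Qq q h, update_of_ne h]; exact m.fQ q hq z hz
  · by_cases h : q = p
    · subst h
      have e1 := h2 _ (hn z hz)
      have e2 := vQ m hq _ (mem_ball_zero_iff.2 (hn1 z hz))
      have e3 := dQ_scale ((ch m hq).mdAt (mem_ball_zero_iff.2 (hn1 z hz))) (lv (m.a q) (m.b q) z)
      have e4 : lv (m.a q) (m.b q) (l • z) = l • lv (m.a q) (m.b q) z := by
        apply Complex.ext <;> simp [lv] <;> ring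
      rw [e4] at e2
      rw [Qp]
      exact (e1.trans e2).trans e3.symm
    · rw [Qq q h, h1 q hq h z hz]; exact m.vQ q hq z hz

/-! ### the planar perturbation -/

/-- even cut-off: `0` for `|x| ≤ 1/4`, `1` for `|x| ≥ 1/2` -/
def B (x : ℝ) : ℝ := Real.smoothTransition ((16 * x ^ 2 - 1) / 3)

theorem B_sm : ContDiff ℝ ∞ B := Real.smoothTransition.contDiff.comp (by fun_prop)

theorem B_zero {x : ℝ} (h : x ^ 2 ≤ 1 / 16) : B x = 0 :=
  Real.smoothTransition.zero_of_nonpos (by linarith)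

theorem B_one {x : ℝ} (h : 1 / 4 ≤ x ^ 2) : B x = 1 :=
  Real.smoothTransition.one_of_one_le (by linarith)

theorem B_nonneg (x : ℝ) : 0 ≤ B x := Real.smoothTransition.nonneg _

theorem B_le (x : ℝ) : B x ≤ 1 := Real.smoothTransition.le_one _

theorem dB_sm : ContDiff ℝ ∞ (deriv B) := (contDiff_infty_iff_deriv.1 B_sm).2

theorem dB_zero {x : ℝ} (h : x ^ 2 < 1 / 16 ∨ 1 / 4 < x ^ 2) : deriv B x = 0 := by
  rcases h with h | h
  · have : B =ᶠ[𝓝 x] fun _ => 0 := by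
      filter_upwards [(isOpen_lt (f := fun x : ℝ => x ^ 2) (by fun_prop) continuous_const).mem_nhds h]
        with y hy using B_zero (le_of_lt hy)
    rw [this.deriv_eq, deriv_const]
  · have : B =ᶠ[𝓝 x] fun _ => 1 := by
      filter_upwards [(isOpen_lt (g := fun x : ℝ => x ^ 2) continuous_const (by fun_prop)).mem_nhds h]
        with y hy using B_one (le_of_lt hy)
    rw [this.deriv_eq, deriv_const]

theorem dB_bd : ∃ C > (0 : ℝ), ∀ x, |deriv B x| ≤ C := by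
  obtain ⟨C, hC⟩ := (isCompact_Icc (a := (-1 : ℝ)) (b := 1)).exists_bound_of_continuousOn
    dB_sm.continuous.continuousOn
  refine ⟨|C| + 1, by positivity, fun x => ?_⟩
  by_cases hx : x ∈ Icc (-1 : ℝ) 1
  · exact (hC x hx).trans (by linarith [le_abs_self C])
  · rw [dB_zero (Or.inr ?_), abs_zero]
    · positivity
    · rw [mem_Icc, not_and_or, not_le, not_le] at hx
      rcases hx with h | h <;> nlinarith

/-- the perturbation -/
def Wp (ε : ℝ) (z : ℂ) : ℂ := ⟨0, ε * deriv B z.re * (1 - B z.im)⟩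

theorem Wp_sm (ε : ℝ) : ContDiff ℝ ∞ (Wp ε) := by
  have h : Wp ε = fun z : ℂ => (ε * deriv B z.re * (1 - B z.im)) • Complex.I := by
    funext z; apply Complex.ext <;> simp [Wp]
  rw [h]
  exact ((contDiff_const.mul (dB_sm.comp Complex.reCLM.contDiff)).mul
    (contDiff_const.sub (B_sm.comp Complex.imCLM.contDiff))).smul contDiff_const

/-- its support -/
def K0 : Set ℂ := {z | 1 / 16 ≤ z.re ^ 2 ∧ z.re ^ 2 ≤ 1 / 4 ∧ z.im ^ 2 ≤ 1 / 4}

theorem K0_sub : K0 ⊆ ball 0 1 := fun z hz => by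
  rw [mem_ball_zero_iff, norm_lt_iff one_pos]; linarith [hz.2.1, hz.2.2]

theorem K0_cp : IsCompact K0 := by
  have h1 : Continuous fun z : ℂ => z.re ^ 2 := by fun_prop
  have h2 : Continuous fun z : ℂ => z.im ^ 2 := by fun_prop
  have h3 : IsClosed K0 := (isClosed_le continuous_const h1).inter
    ((isClosed_le h1 continuous_const).inter (isClosed_le h2 continuous_const))
  exact (isCompact_closedBall (0 : ℂ) 1).of_isClosed_subset h3 (K0_sub.trans ball_subset_closedBall)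

theorem Wp_zero (ε : ℝ) (z : ℂ) (hz : z ∉ K0) : Wp ε z = 0 := by
  have : deriv B z.re = 0 ∨ B z.im = 1 := by
    by_contra h
    rw [not_or] at h
    refine hz ⟨?_, ?_, ?_⟩ <;> by_contra h' <;> rw [not_le] at h'
    · exact h.1 (dB_zero (Or.inl h'))
    · exact h.1 (dB_zero (Or.inr h'))
    · exact h.2 (B_one h'.le)
  apply Complex.ext
  · rfl
  · rcases this with h | h <;> simp [Wp, h]

/-- the new unstable curve -/
def gam (ε x0 s : ℝ) : ℂ := ⟨x0 * Real.exp s, ε * B (x0 * Real.exp s) / (x0 * Real.exp s)⟩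

theorem gam_im {ε : ℝ} (hε : |ε| ≤ 1 / 16) (x : ℝ) : (ε * B x / x) ^ 2 ≤ 1 / 16 := by
  by_cases h : x ^ 2 ≤ 1 / 16
  · rw [B_zero h]; norm_num
  rw [not_le] at h
  rw [div_pow, div_le_iff₀ (by linarith), mul_pow, ← sq_abs ε]
  have h1 : B x ^ 2 ≤ 1 := by nlinarith [B_nonneg x, B_le x]
  have h2 : |ε| ^ 2 ≤ 1 / 256 := by nlinarith [abs_nonneg ε]
  nlinarith [sq_nonneg (|ε|), sq_nonneg (B x)]

theorem gam_deriv {ε x0 : ℝ} (hε : |ε| ≤ 1 / 16) (h0 : x0 ≠ 0) (s : ℝ) :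
    HasDerivAt (gam ε x0) (lv 1 (-1) (gam ε x0 s) + Wp ε (gam ε x0 s)) s := by
  have h1 : HasDerivAt (fun s => x0 * Real.exp s) (x0 * Real.exp s) s :=
    (Real.hasDerivAt_exp s).const_mul x0
  have hne : x0 * Real.exp s ≠ 0 := mul_ne_zero h0 (Real.exp_pos s).ne'
  have h2 := (((B_sm.differentiable (by simp) _).hasDerivAt.comp s h1).const_mul ε).div h1 hne
  have h3 := hasDerivAt_mk h1 h2
  refine HasDerivAt.congr_deriv (f := gam ε x0) h3 (Eq.symm ?_)
  have h4 := B_zero (gam_im hε (x0 * Real.exp s))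
  apply Complex.ext
  · simp [lv, Wp, gam]
  · simp only [lv, Wp, gam, Complex.add_im, h4, comp]
    field_simp
    ring

end Crest.Agent.X212.Mor94
end
end

-- ▼ part X212/Mor94/Loc
section

/-!
# Row 212, PERF-MORSE (helper94): a non-degenerate critical point in the plane is made quadratic
-/

set_option autoImplicit false
set_option linter.unusedSectionVars false
noncomputable section
open Set Filter Topology Function Metric
open scoped ContDiff Manifold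

namespace Crest.Agent.X212.Mor94
open Prf6 Flo26

theorem dec (z : ℂ) : z = z.re • (1 : ℂ) + z.im • Complex.I := by
  apply Complex.ext <;> simp

/-- an orthogonal pair for a symmetric non-degenerate form -/
theorem exists_pair (H : ℂ →L[ℝ] ℂ →L[ℝ] ℝ) (hs : ∀ u w, H u w = H w u)
    (hn : ∀ v, H v = 0 → v = 0) : ∃ u w : ℂ, H u w = 0 ∧ H u u ≠ 0 ∧ H w w ≠ 0 ∧
      u.re * w.im - w.re * u.im ≠ 0 := by
  obtain ⟨u, hu⟩ : ∃ u, H u u ≠ 0 := by
    by_contra h
    push Not at h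
    refine one_ne_zero (hn 1 ?_)
    ext1 w
    have := h (1 + w)
    simp only [map_add, add_apply, h, hs w 1] at this
    simp only [zero_apply]
    linarith
  have ex : ∀ v z : ℂ, H v z = z.re * H v 1 + z.im * H v Complex.I := fun v z => by
    conv_lhs => rw [dec z]
    simp only [map_add, map_smul, smul_eq_mul]
  let w : ℂ := ⟨-H u Complex.I, H u 1⟩
  have h1 : H u w = 0 := by rw [ex]; simp only [w]; ring
  have h2 : u.re * w.im - w.re * u.im = H u u := by rw [ex u u]; simp only [w]; ring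
  refine ⟨u, w, h1, hu, fun h => hu ?_, h2 ▸ hu⟩
  have h3 : H w u = 0 := (hs _ _).trans h1
  rw [ex] at h h3
  have h4 : H w 1 = 0 := by
    apply mul_left_cancel₀ hu
    rw [← h2]
    linear_combination w.im * h3 - u.im * h
  have h5 : H w Complex.I = 0 := by
    apply mul_left_cancel₀ hu
    rw [← h2]
    linear_combination u.re * h - w.re * h3
  have h6 : w = 0 := hn w (by ext1 z; rw [ex, h4, h5]; simp)
  rw [← h2, h6]; simp

theorem exists_unit {α : ℝ} (h : α ≠ 0) : ∃ l a : ℝ, 0 < l ∧ l ^ 2 * α = 2 * a ∧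
    ((a = 1 ∧ 0 < α) ∨ (a = -1 ∧ α < 0)) := by
  have h1 : 0 < |α| := abs_pos.2 h
  have h2 : √(2 / |α|) ^ 2 = 2 / |α| := Real.sq_sqrt (by positivity)
  rcases lt_or_gt_of_ne h with h3 | h3
  · refine ⟨√(2 / |α|), -1, by positivity, ?_, Or.inr ⟨rfl, h3⟩⟩
    rw [h2, abs_of_neg h3]; field_simp
  · refine ⟨√(2 / |α|), 1, by positivity, ?_, Or.inl ⟨rfl, h3⟩⟩
    rw [h2, abs_of_pos h3]; field_simp

/-- positive diagonalisation -/
theorem exists_diag (H : ℂ →L[ℝ] ℂ →L[ℝ] ℝ) (hs : ∀ u w, H u w = H w u)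
    (hn : ∀ v, H v = 0 → v = 0) : ∃ (T : ℂ →L[ℝ] ℂ) (a b : ℝ), 0 < T.det ∧
      ((a = 1 ∧ b = 1) ∨ (a = -1 ∧ b = -1) ∨ (a = 1 ∧ b = -1)) ∧
      ∀ z, H (T z) (T z) = 2 * (a * z.re ^ 2 + b * z.im ^ 2) := by
  obtain ⟨u, w, h1, h2, h3, h4, h5⟩ : ∃ u w : ℂ, H u w = 0 ∧ H u u ≠ 0 ∧ H w w ≠ 0 ∧
      u.re * w.im - w.re * u.im ≠ 0 ∧ ¬ (H u u < 0 ∧ 0 < H w w) := by
    obtain ⟨u, w, h1, h2, h3, h4⟩ := exists_pair H hs hn
    by_cases h : H u u < 0 ∧ 0 < H w w
    · exact ⟨w, u, (hs _ _).trans h1, h3, h2, fun h' => h4 (by linarith), fun h' => by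
        linarith [h.1, h'.2]⟩
    · exact ⟨u, w, h1, h2, h3, h4, h⟩
  obtain ⟨u, w, h1, h2, h3, h4, h5⟩ : ∃ u w : ℂ, H u w = 0 ∧ H u u ≠ 0 ∧ H w w ≠ 0 ∧
      0 < u.re * w.im - w.re * u.im ∧ ¬ (H u u < 0 ∧ 0 < H w w) := by
    rcases lt_or_gt_of_ne h4 with h | h
    · exact ⟨u, -w, by simp [h1], h2, by simpa using h3, by simp; linarith, by simpa using h5⟩
    · exact ⟨u, w, h1, h2, h3, h, h5⟩
  obtain ⟨l, a, hl, ha, ha'⟩ := exists_unit h2
  obtain ⟨k, b, hk, hb, hb'⟩ := exists_unit h3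
  refine ⟨Complex.reCLM.smulRight (l • u) + Complex.imCLM.smulRight (k • w), a, b, ?_, ?_,
    fun z => ?_⟩
  · rw [det_C]
    simp
    nlinarith [mul_pos (mul_pos hl hk) h4]
  · rcases ha' with ⟨rfl, ha'⟩ | ⟨rfl, ha'⟩ <;> rcases hb' with ⟨rfl, hb'⟩ | ⟨rfl, hb'⟩
    · simp
    · simp
    · exact (h5 ⟨ha', hb'⟩).elim
    · simp
  · simp only [add_apply, ContinuousLinearMap.smulRight_apply, map_add,
      map_smul, smul_apply, smul_eq_mul, Complex.reCLM_apply,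
      Complex.imCLM_apply, hs w u, h1]
    linear_combination z.re ^ 2 * ha + z.im ^ 2 * hb

/-- second order Taylor estimate -/
theorem taylor {g : ℂ → ℝ} {U : Set ℂ} (hU : IsOpen U) (h0 : 0 ∈ U) (hg : ContDiffOn ℝ ∞ g U)
    (hd : fderiv ℝ g 0 = 0) {H : ℂ →L[ℝ] ℂ →L[ℝ] ℝ} (hH : H = fderiv ℝ (fderiv ℝ g) 0)
    (hs : ∀ u w, H u w = H w u) {η : ℝ} (hη : 0 < η) :
    ∃ ρ > 0, ball 0 ρ ⊆ U ∧ ∀ z : ℂ, ‖z‖ < ρ →
      HasFDerivAt (fun z => g z - g 0 - H z z / 2) (fderiv ℝ g z - H z) z ∧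
      ‖fderiv ℝ g z - H z‖ ≤ η * ‖z‖ ∧ |g z - g 0 - H z z / 2| ≤ η * ‖z‖ ^ 2 := by
  have h1 : HasFDerivAt (fderiv ℝ g) H 0 := by
    rw [hH]
    exact (((hg.contDiffAt (hU.mem_nhds h0)).fderiv_right (m := 1)
      (WithTop.coe_le_coe.2 (le_top (a := (2 : ℕ∞))))).differentiableAt (by simp)).hasFDerivAt
  have h2 := (Asymptotics.isLittleO_iff.1 h1.isLittleO) hη
  simp only [hd, sub_zero] at h2
  obtain ⟨ρ, hρ, h3⟩ := Metric.eventually_nhds_iff_ball.1 (h2.and (hU.mem_nhds h0))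
  have h4 : ∀ z ∈ ball (0 : ℂ) ρ,
      HasFDerivAt (fun z => g z - g 0 - H z z / 2) (fderiv ℝ g z - H z) z := fun z hz => by
    have h5 := ((hg.contDiffAt (hU.mem_nhds (h3 z hz).2)).differentiableAt (by simp)).hasFDerivAt
    have h6 := (H.hasFDerivAt (x := z)).clm_apply (hasFDerivAt_id z)
    have h7 := (h5.sub_const (g 0)).sub (h6.const_mul (1 / 2))
    refine HasFDerivAt.congr_fderiv (h7.congr_of_eventuallyEq
      (Eventually.of_forall fun y => by simp; ring)) ?_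
    ext1 w
    simp [hs w z]
    ring
  refine ⟨ρ, hρ, fun z hz => (h3 z hz).2, fun z hz => ?_⟩
  have hz' := mem_ball_zero_iff.2 hz
  refine ⟨h4 z hz', (h3 z hz').1, ?_⟩
  have sub : closedBall (0 : ℂ) ‖z‖ ⊆ ball 0 ρ := closedBall_subset_ball hz
  have h8 := (convex_closedBall (0 : ℂ) ‖z‖).norm_image_sub_le_of_norm_hasFDerivWithin_le
    (C := η * ‖z‖) (fun y hy => (h4 y (sub hy)).hasFDerivWithinAt)
    (fun y hy => (h3 y (sub hy)).1.trans
      (mul_le_mul_of_nonneg_left (mem_closedBall_zero_iff.1 hy) hη.le))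
    (mem_closedBall_self (norm_nonneg z)) (mem_closedBall_zero_iff.2 le_rfl)
  simp only [sub_self, map_zero, zero_div, sub_zero, Real.norm_eq_abs] at h8
  exact h8.trans_eq (by ring)

theorem norm_lv {a b : ℝ} (ha : a ^ 2 = 1) (hb : b ^ 2 = 1) (z : ℂ) : ‖lv a b z‖ = ‖z‖ := by
  rw [← sq_eq_sq₀ (norm_nonneg _) (norm_nonneg _), Complex.sq_norm, Complex.sq_norm,
    Complex.normSq_apply, Complex.normSq_apply]
  simp only [lv]
  linear_combination z.re ^ 2 * ha + z.im ^ 2 * hb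

theorem lv_sm (a b : ℝ) : ContDiff ℝ ∞ (lv a b) := by
  have h : lv a b = fun z : ℂ => (a * z.re) • (1 : ℂ) + (b * z.im) • Complex.I := by
    funext z; apply Complex.ext <;> simp [lv]
  rw [h]
  exact ((contDiff_const.mul Complex.reCLM.contDiff).smul contDiff_const).add
    ((contDiff_const.mul Complex.imCLM.contDiff).smul contDiff_const)

/-- a bump: `1` on the unit ball, `0` off the ball of radius `2` -/
def bp : ContDiffBump (0 : ℂ) := ⟨1, 2, one_pos, one_lt_two⟩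

theorem bp_one {z : ℂ} (h : ‖z‖ < 1) : bp z = 1 :=
  bp.one_of_mem_closedBall (mem_closedBall_zero_iff.2 h.le)

theorem bp_zero {z : ℂ} (h : z ∉ closedBall (0 : ℂ) 2) : bp z = 0 :=
  bp.zero_of_le_dist (le_of_lt (not_le.1 h))

/-- the local modification -/
theorem loc {g : ℂ → ℝ} {U : Set ℂ} (hU : IsOpen U) (h0 : 0 ∈ U) (hg : ContDiffOn ℝ ∞ g U)
    (hd : fderiv ℝ g 0 = 0) (hn : ∀ v, fderiv ℝ (fderiv ℝ g) 0 v = 0 → v = 0) :
    ∃ (T : ℂ ≃L[ℝ] ℂ) (a b c : ℝ) (h : ℂ → ℝ), 0 < (T : ℂ →L[ℝ] ℂ).det ∧ 0 < c ∧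
      ((a = 1 ∧ b = 1) ∨ (a = -1 ∧ b = -1) ∨ (a = 1 ∧ b = -1)) ∧ MapsTo T (ball 0 3) U ∧
      ContDiffOn ℝ ∞ h (ball 0 3) ∧ (∀ z ∉ closedBall (0 : ℂ) 2, h z = 0) ∧
      (∀ z : ℂ, ‖z‖ < 1 → g (T z) + h z = g 0 + c * (a * z.re ^ 2 + b * z.im ^ 2)) ∧
      ∀ z : ℂ, ‖z‖ < 3 → z ≠ 0 → 0 < fderiv ℝ (fun z => g (T z) + h z) z (lv a b z) := by
  obtain ⟨H, hH⟩ : ∃ H, H = fderiv ℝ (fderiv ℝ g) 0 := ⟨_, rfl⟩
  have hs : ∀ u w, H u w = H w u := by
    rw [hH]
    exact ((hg.contDiffAt (hU.mem_nhds h0)).isSymmSndFDerivAt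
      (by simpa using WithTop.coe_le_coe.2 (le_top (a := (2 : ℕ∞))))).eq
  obtain ⟨T0, a, b, hT0, hab, hq⟩ := exists_diag H hs (hH ▸ hn)
  have ha : a ^ 2 = 1 := by rcases hab with h | h | h <;> simp [h.1]
  have hb : b ^ 2 = 1 := by rcases hab with h | h | h <;> simp [h.2]
  have hβ : ContDiff ℝ ∞ bp := bp.contDiff
  obtain ⟨C0, hC0⟩ := (isCompact_closedBall (0 : ℂ) 3).exists_bound_of_continuousOn
    (hβ.continuous_fderiv (by simp)).continuousOn
  obtain ⟨C, hC, hCb⟩ : ∃ C > (0 : ℝ), ∀ z : ℂ, ‖z‖ < 3 → ‖fderiv ℝ bp z‖ ≤ C :=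
    ⟨|C0| + 1, by positivity, fun z hz =>
      (hC0 z (mem_closedBall_zero_iff.2 hz.le)).trans (by linarith [le_abs_self C0])⟩
  obtain ⟨N, hN, hNb⟩ : ∃ N > (0 : ℝ), ∀ z, ‖T0 z‖ ≤ N * ‖z‖ :=
    ⟨‖T0‖ + 1, by positivity, fun z => (T0.le_opNorm z).trans (by nlinarith [norm_nonneg z])⟩
  obtain ⟨η, hη, hη1⟩ : ∃ η > (0 : ℝ), η * (N ^ 2 * (1 + 3 * C)) = 1 :=
    ⟨1 / (N ^ 2 * (1 + 3 * C)), by positivity, by field_simp⟩
  obtain ⟨ρ0, hρ0, hsub, hest⟩ := taylor hU h0 hg hd hH hs hη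
  obtain ⟨ρ, hρ, hρ1⟩ : ∃ ρ > (0 : ℝ), ρ * N * 3 = ρ0 := ⟨ρ0 / (N * 3), by positivity, by field_simp⟩
  have hdet : 0 < (ρ • T0).det := by
    rw [det_C] at hT0 ⊢
    simp only [smul_apply, Complex.smul_re, Complex.smul_im, smul_eq_mul]
    nlinarith [mul_pos (mul_pos hρ hρ) hT0]
  let T : ℂ ≃L[ℝ] ℂ := (ρ • T0).toContinuousLinearEquivOfDetNeZero hdet.ne'
  have hT : ∀ z, T z = ρ • T0 z := fun z => rfl
  have hTn : ∀ z, ‖T z‖ ≤ ρ * N * ‖z‖ := fun z => by
    rw [hT, norm_smul, Real.norm_of_nonneg hρ.le, mul_assoc]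
    exact mul_le_mul_of_nonneg_left (hNb z) hρ.le
  have hT3 : ∀ z : ℂ, ‖z‖ < 3 → ‖T z‖ < ρ0 := fun z hz =>
    (hTn z).trans_lt (hρ1 ▸ mul_lt_mul_of_pos_left hz (by positivity))
  let r : ℂ → ℝ := fun z => g z - g 0 - H z z / 2
  have hq' : ∀ z, H (T z) (T z) / 2 = ρ ^ 2 * (a * z.re ^ 2 + b * z.im ^ 2) := fun z => by
    simp only [hT, map_smul, smul_apply, smul_eq_mul, hq]; ring
  have hF : (fun z => g (T z) + -(bp z * r (T z))) = fun z =>
      (g 0 + ρ ^ 2 * (a * z.re ^ 2 + b * z.im ^ 2)) + (1 - bp z) * r (T z) := by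
    funext z
    simp only [r, hq']; ring
  have hmap : MapsTo T (ball 0 3) U := fun z hz =>
    hsub (mem_ball_zero_iff.2 (hT3 z (mem_ball_zero_iff.1 hz)))
  refine ⟨T, a, b, ρ ^ 2, fun z => -(bp z * r (T z)), hdet, by positivity, hab, hmap, ?_,
    fun z hz => by simp [bp_zero hz], fun z hz => ?_, fun z hz hz0 => ?_⟩
  · have h1 : ContDiffOn ℝ ∞ r U := (hg.sub contDiffOn_const).sub
      ((H.contDiff.clm_apply contDiff_id).div_const 2).contDiffOn
    exact (hβ.contDiffOn.mul (h1.comp T.contDiff.contDiffOn hmap)).neg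
  · rw [congrFun hF z, bp_one hz]; ring
  · obtain ⟨e1, e2, e3⟩ := hest (T z) (hT3 z hz)
    have d1 : DifferentiableAt ℝ (fun z : ℂ => g 0 + ρ ^ 2 * (a * z.re ^ 2 + b * z.im ^ 2)) z := by
      have := Complex.reCLM.differentiableAt (x := z)
      have := Complex.imCLM.differentiableAt (x := z)
      fun_prop
    have d2 := ((hβ.differentiable (by simp) z).hasFDerivAt.const_sub 1).mul
      (e1.comp z T.hasFDerivAt)
    have d3 : HasFDerivAt (fun z : ℂ => (g 0 + ρ ^ 2 * (a * z.re ^ 2 + b * z.im ^ 2)) +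
      (1 - bp z) * r (T z)) _ z := d1.hasFDerivAt.add d2
    rw [hF, d3.fderiv]
    simp only [add_apply, smul_apply, fderiv_quad,
      ContinuousLinearMap.comp_apply, neg_apply, smul_eq_mul, comp,
      ContinuousLinearEquiv.coe_coe]
    have n0 : 0 < ‖z‖ := norm_pos_iff.2 hz0
    have n1 : 2 * a * z.re * (lv a b z).re + 2 * b * z.im * (lv a b z).im = 2 * ‖z‖ ^ 2 := by
      rw [Complex.sq_norm, Complex.normSq_apply]
      simp only [lv]
      linear_combination 2 * z.re ^ 2 * ha + 2 * z.im ^ 2 * hb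
    have n2 : |(1 - bp z) * (fderiv ℝ g (T z) - H (T z)) (T (lv a b z))| ≤
        1 * (η * (ρ * N * ‖z‖) * (ρ * N * ‖z‖)) := by
      rw [abs_mul]
      refine mul_le_mul (abs_le.2 ⟨by linarith [bp.le_one (x := z)], by linarith [bp.nonneg' z]⟩)
        ?_ (abs_nonneg _) zero_le_one
      refine ((fderiv ℝ g (T z) - H (T z)).le_opNorm _).trans (mul_le_mul
        (e2.trans (mul_le_mul_of_nonneg_left (hTn z) hη.le)) ?_ (norm_nonneg _) (by positivity))
      simpa only [norm_lv ha hb] using hTn (lv a b z)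
    have n3 : |(g (T z) - g 0 - H (T z) (T z) / 2) * -(fderiv ℝ bp z (lv a b z))| ≤
        η * (ρ * N * ‖z‖) ^ 2 * (C * 3) := by
      rw [abs_mul, abs_neg]
      refine mul_le_mul (e3.trans (mul_le_mul_of_nonneg_left
        (pow_le_pow_left₀ (norm_nonneg _) (hTn z) 2) hη.le)) ?_ (abs_nonneg _) (by positivity)
      refine ((fderiv ℝ bp z).le_opNorm _).trans (mul_le_mul (hCb z hz) ?_ (norm_nonneg _) hC.le)
      rw [norm_lv ha hb]; exact hz.le
    have n4 : 1 * (η * (ρ * N * ‖z‖) * (ρ * N * ‖z‖)) + η * (ρ * N * ‖z‖) ^ 2 * (C * 3) =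
        ρ ^ 2 * ‖z‖ ^ 2 := by linear_combination ρ ^ 2 * ‖z‖ ^ 2 * hη1
    have n5 : 0 < ρ ^ 2 * ‖z‖ ^ 2 := by positivity
    rw [n1]
    linarith [(abs_le.1 n2).1, (abs_le.1 n3).1]

end Crest.Agent.X212.Mor94
end
end

-- ▼ part X212/Mor94/Sard
section

/-!
# Row 212, PERF-MORSE (helper94): a generic combination of cut-off coordinates is a Morse function
-/

set_option autoImplicit false
set_option linter.unusedSectionVars false
noncomputable section
open Set Filter Topology Function Metric MeasureTheory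
open scoped ContDiff Manifold

namespace Crest.Agent.X212.Mor94
open Prf6 Flo26

/-- parametric Sard in equal dimensions -/
theorem sard {ι : Type*} [Fintype ι] [DecidableEq ι] (U : Set ℂ)
    (Φ : ι → (ι → ℂ) → ℂ → ℂ)
    (hΦ : ∀ i s, ∀ z ∈ U, DifferentiableAt ℝ (fun p : (ι → ℂ) × ℂ => Φ i p.1 p.2) (s, z))
    (hi : ∀ i s t, Φ i (update s i t) = Φ i s) :
    ∃ s : ι → ℂ, ∀ i, ∀ z ∈ U, s i + Φ i s z = 0 → ∀ v, fderiv ℝ (Φ i s) z v = 0 → v = 0 := by
  let Ψ : ι → (ι → ℂ) → ι → ℂ := fun i σ => update σ i (-Φ i σ (σ i))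
  have hΨ : ∀ i σ, σ i ∈ U → DifferentiableAt ℝ (Ψ i) σ := fun i σ h => by
    have h1 : DifferentiableAt ℝ (fun σ : ι → ℂ => Φ i σ (σ i)) σ :=
      (hΦ i σ _ h).comp σ (f := fun σ : ι → ℂ => (σ, σ i)) (by fun_prop)
    refine differentiableAt_pi.2 fun j => ?_
    by_cases hj : j = i
    · subst hj
      simp only [Ψ, update_self]
      exact h1.neg
    · simp only [Ψ, update_of_ne hj]
      fun_prop
  let N : ι → Set (ι → ℂ) := fun i => Ψ i '' {σ | σ i ∈ U ∧ (fderiv ℝ (Ψ i) σ).det = 0}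
  have hN : volume (⋃ i, N i) = 0 := measure_iUnion_null fun i =>
    addHaar_image_eq_zero_of_det_fderivWithin_eq_zero volume (f' := fderiv ℝ (Ψ i))
      (fun σ h => (hΨ i σ h.1).hasFDerivAt.hasFDerivWithinAt) fun σ h => h.2
  obtain ⟨s, hs⟩ : ∃ s, s ∉ ⋃ i, N i := by
    by_contra h
    push Not at h
    rw [eq_univ_of_forall h] at hN
    exact (isOpen_univ.measure_pos volume univ_nonempty).ne' hN
  refine ⟨s, fun i z hz h0 v hv => ?_⟩
  have hz' : update s i z i ∈ U := by rwa [update_self]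
  have e : Ψ i ∘ update s i = update s i ∘ fun t => -Φ i s t := by
    funext t
    simp only [Ψ, comp, hi, update_self, update_idem]
  have hdet : (fderiv ℝ (Ψ i) (update s i z)).det ≠ 0 := fun h =>
    hs (mem_iUnion.2 ⟨i, update s i z, ⟨hz', h⟩, by
      rw [show Ψ i (update s i z) = _ from congrFun e z, comp_apply,
        ← eq_neg_of_add_eq_zero_left h0, update_eq_self]⟩)
  have d0 : DifferentiableAt ℝ (Φ i s) z :=
    (hΦ i s z hz).comp z (f := fun z : ℂ => (s, z)) (by fun_prop)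
  have d1 := (hΨ i _ hz').hasFDerivAt.comp z (hasFDerivAt_update (𝕜 := ℝ) s z)
  have d2 := (hasFDerivAt_update (𝕜 := ℝ) s (i := i) (-Φ i s z)).comp z d0.hasFDerivAt.neg
  rw [e] at d1
  have d3 := DFunLike.congr_fun (d1.unique d2) v
  simp only [ContinuousLinearMap.comp_apply, neg_apply, hv, neg_zero, map_zero] at d3
  have d4 := ((fderiv ℝ (Ψ i) (update s i z)).toContinuousLinearEquivOfDetNeZero hdet).injective
    (a₂ := 0) (d3.trans (map_zero _).symm)
  simpa using congrFun d4 i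

variable {M : Type*} [TopologicalSpace M] [ChartedSpace ℂ M] [IsManifold IC ∞ M] {o : Or M}

/-- a positive chart on `U` -/
structure PC (o : Or M) (Q : ℂ → M) (U : Set ℂ) : Prop where
  op : IsOpen U
  pm : ∀ z ∈ U, Pm oC o Q z
  inj : InjOn Q U

theorem PC.ch {Q : ℂ → M} {U : Set ℂ} (h : PC o Q U) : Ch Q U :=
  ⟨h.op, fun z hz => (h.pm z hz).1, h.inj⟩

theorem PC.comp {Q : ℂ → M} {U V : Set ℂ} (h : PC o Q U) {T : ℂ → ℂ} (hT : ∀ z, Pm oC oC T z)
    (hi : Injective T) (hV : IsOpen V) (hm : MapsTo T V U) : PC o (Q ∘ T) V :=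
  ⟨hV, fun z hz => (h.pm _ (hm hz)).comp (hT z), h.inj.comp hi.injOn hm⟩

theorem exists_pc {e : ℂ → M} (he : Pm oC o e 0) {W : Set M} (hW : W ∈ 𝓝 (e 0)) :
    ∃ U, 0 ∈ U ∧ PC o e U ∧ MapsTo e U W := by
  obtain ⟨Φ, hx, hΦ⟩ := he.1
  obtain ⟨U, h1, h2, h3⟩ := _root_.eventually_nhds_iff.1 (he.eventually.and
    ((he.1.contMDiffAt.continuousAt.eventually hW).and (Φ.open_source.mem_nhds hx)))
  refine ⟨U, h3, ⟨h2, fun z hz => (h1 z hz).1, fun z hz w hw h => ?_⟩, fun z hz => (h1 z hz).2.1⟩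
  rw [hΦ (h1 z hz).2.2, hΦ (h1 w hw).2.2] at h
  exact Φ.injOn (h1 z hz).2.2 (h1 w hw).2.2 h

theorem exists_pc3 (o : Or M) (x : M) : ∃ R : ℂ → M, R 0 = x ∧ PC o R (ball 0 3) := by
  obtain ⟨e, he, rfl⟩ := exists_pm o x
  obtain ⟨U, h0, hU, -⟩ := exists_pc he univ_mem
  obtain ⟨r, hr, hsub⟩ := Metric.isOpen_iff.1 hU.op 0 h0
  have hr3 : r / 3 ≠ 0 := by positivity
  refine ⟨e ∘ fun z => (r / 3) • z, by simp, hU.comp (pm_scale hr3) (smul_right_injective ℂ hr3)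
    isOpen_ball fun z hz => hsub ?_⟩
  rw [mem_ball_zero_iff] at hz ⊢
  rw [norm_smul, Real.norm_of_nonneg (by positivity)]
  nlinarith

/-- the gradient of a covector -/
def Lam : (ℂ →L[ℝ] ℝ) →L[ℝ] ℂ :=
  (ContinuousLinearMap.apply ℝ ℝ (1 : ℂ)).smulRight (1 : ℂ) +
    (ContinuousLinearMap.apply ℝ ℝ Complex.I).smulRight Complex.I

theorem two_le : (1 : WithTop ℕ∞) + 1 ≤ ∞ := WithTop.coe_le_coe.2 (le_top (a := (2 : ℕ∞)))

theorem dd {g : ℂ → ℝ} {z : ℂ} (h : ContDiffAt ℝ ∞ g z) : DifferentiableAt ℝ (fderiv ℝ g) z :=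
  (h.fderiv_right (m := 1) two_le).differentiableAt (by simp)

/-- a function all of whose critical points are non-degenerate -/
theorem exists_nd [T2Space M] [CompactSpace M] (o : Or M) : ∃ f : M → ℝ, ContMDiff IC IR ∞ f ∧
    ∀ x, df f x = 0 → ∃ R : ℂ → M, R 0 = x ∧ Pm oC o R 0 ∧
      ∀ v, fderiv ℝ (fderiv ℝ (f ∘ R)) 0 v = 0 → v = 0 := by
  classical
  choose R hR0 hR using exists_pc3 o
  have b13 : ball (0 : ℂ) 1 ⊆ ball 0 3 := ball_subset_ball (by norm_num)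
  obtain ⟨t, -, ht⟩ := isCompact_univ.elim_nhds_subcover (fun x => R x '' ball 0 1) fun x _ => by
    have := (hR x).ch.image_nhds (mem_ball_self (by norm_num)) (ball_mem_nhds (0 : ℂ) one_pos)
    rwa [hR0] at this
  have ex : ∀ (l : ℂ →L[ℝ] ℝ) (i : M), ∃ u : M → ℝ, ContMDiff IC IR ∞ u ∧
      ∀ z ∈ ball (0 : ℂ) 1, fderiv ℝ (u ∘ R i) z = l := fun l i => by
    obtain ⟨u, h1, h2, -⟩ := (hR i).ch.exists_fun (g := fun z => bp z * l z)
      (bp.contDiff.mul l.contDiff).contDiffOn (isCompact_closedBall 0 2)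
      (closedBall_subset_ball (by norm_num)) fun z _ hz => by simp [bp_zero hz]
    refine ⟨u, h1, fun z hz => ?_⟩
    rw [← l.fderiv (x := z)]
    refine Filter.EventuallyEq.fderiv_eq ?_
    filter_upwards [isOpen_ball.mem_nhds hz] with y hy
    rw [comp_apply, h2 y (b13 hy), bp_one (mem_ball_zero_iff.1 hy), one_mul]
  choose u hu hu' using ex Complex.reCLM
  choose w hw hw' using ex Complex.imCLM
  let Φ : t → (t → ℂ) → ℂ → ℂ := fun i s z => ∑ j ∈ Finset.univ.erase i,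
    ((s j).re • Lam (fderiv ℝ (u j ∘ R i) z) + (s j).im • Lam (fderiv ℝ (w j ∘ R i) z))
  have hΦ1 : ∀ i s, ∀ z ∈ ball (0 : ℂ) 1,
      DifferentiableAt ℝ (fun p : (t → ℂ) × ℂ => Φ i p.1 p.2) (s, z) := fun i s z hz => by
    refine DifferentiableAt.fun_sum fun j _ => ?_
    have h1 : ∀ g : M → ℝ, ContMDiff IC IR ∞ g → DifferentiableAt ℝ
        (fun p : (t → ℂ) × ℂ => Lam (fderiv ℝ (g ∘ R i) p.2)) (s, z) := fun g hg =>
      Lam.differentiableAt.comp (s, z)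
        ((dd ((hR i).ch.comp_sm (b13 hz) hg)).comp (s, z) differentiableAt_snd)
    have h2 : DifferentiableAt ℝ (fun p : (t → ℂ) × ℂ => p.1 j) (s, z) := by fun_prop
    exact ((Complex.reCLM.differentiableAt.comp _ h2).smul (h1 _ (hu j))).add
      ((Complex.imCLM.differentiableAt.comp _ h2).smul (h1 _ (hw j)))
  have hΦ2 : ∀ i s a, Φ i (update s i a) = Φ i s := fun i s a => by
    funext z
    refine Finset.sum_congr rfl fun j hj => ?_
    rw [update_of_ne (Finset.ne_of_mem_erase hj)]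
  obtain ⟨s, hs⟩ := sard (ball 0 1) Φ hΦ1 hΦ2
  let f : M → ℝ := fun x => ∑ j : t, ((s j).re * u j x + (s j).im * w j x)
  have hf : ContMDiff IC IR ∞ f := contMDiff_finsetSum fun j _ =>
    (contMDiff_const.mul (hu j)).add (contMDiff_const.mul (hw j))
  refine ⟨f, hf, fun x hx => ?_⟩
  obtain ⟨i, hi, z, hz, rfl⟩ := mem_iUnion₂.1 (ht (mem_univ x))
  have key : ∀ y ∈ ball (0 : ℂ) 1, Lam (fderiv ℝ (f ∘ R i) y) = s ⟨i, hi⟩ + Φ ⟨i, hi⟩ s y := by
    intro y hy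
    have d : ∀ g : M → ℝ, ContMDiff IC IR ∞ g → HasFDerivAt (g ∘ R i) (fderiv ℝ (g ∘ R i) y) y :=
      fun g hg => (((hR i).ch.comp_sm (b13 hy) hg).differentiableAt (by simp)).hasFDerivAt
    have h1 : HasFDerivAt (f ∘ R i) _ y := HasFDerivAt.fun_sum (u := Finset.univ) fun (j : t) _ =>
      ((d _ (hu j)).const_mul (s j).re).add ((d _ (hw j)).const_mul (s j).im)
    rw [h1.fderiv, map_sum, ← Finset.add_sum_erase _ _ (Finset.mem_univ ⟨i, hi⟩)]
    simp only [map_add, map_smul, hu' i y hy, hw' i y hy, Φ]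
    congr 1
    apply Complex.ext <;> simp [Lam]
  have h0 : fderiv ℝ (f ∘ R i) z = 0 :=
    ((hR i).ch.df_eq_zero (b13 hz) ((hf _).mdifferentiableAt (by simp))).1 hx
  refine ⟨R i ∘ fun y => z + 1 * y, by simp, Pm.comp (by simpa using (hR i).pm z (b13 hz))
    (pm_affine one_ne_zero z 0), fun v hv => hs ⟨i, hi⟩ z hz (by rw [← key z hz, h0, map_zero]) v ?_⟩
  have e1 : fderiv ℝ (f ∘ R i ∘ fun y => z + 1 * y) = fun y => fderiv ℝ (f ∘ R i) (z + y) := by
    funext y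
    rw [← fderiv_comp_add_left]
    simp only [one_mul]
    rfl
  rw [e1, fderiv_comp_add_left, add_zero] at hv
  have e2 : Φ ⟨i, hi⟩ s =ᶠ[𝓝 z] fun y => Lam (fderiv ℝ (f ∘ R i) y) - s ⟨i, hi⟩ := by
    filter_upwards [isOpen_ball.mem_nhds hz] with y hy
    rw [key y hy, add_sub_cancel_left]
  have e3 := (Lam.hasFDerivAt.comp z (dd ((hR i).ch.comp_sm (b13 hz) hf)).hasFDerivAt).sub_const
    (s ⟨i, hi⟩)
  rw [e2.fderiv_eq, show fderiv ℝ (fun y => Lam (fderiv ℝ (f ∘ R i) y) - s ⟨i, hi⟩) z = _ from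
    e3.fderiv, ContinuousLinearMap.comp_apply, hv, map_zero]

/-- non-degenerate critical points are finite in number -/
theorem finite_crit [CompactSpace M] {f : M → ℝ} (hf : ContMDiff IC IR ∞ f)
    (h : ∀ x, df f x = 0 → ∃ R : ℂ → M, R 0 = x ∧ Pm oC o R 0 ∧
      ∀ v, fderiv ℝ (fderiv ℝ (f ∘ R)) 0 v = 0 → v = 0) : {x | df f x = 0}.Finite := by
  have key : ∀ x, ∀ᶠ y in 𝓝 x, df f y = 0 → y = x := fun x => by
    obtain ⟨R, rfl, hR, h1⟩ : ∃ R : ℂ → M, R 0 = x ∧ Pm oC o R 0 ∧ (df f x = 0 →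
        ∀ v, fderiv ℝ (fderiv ℝ (f ∘ R)) 0 v = 0 → v = 0) := by
      by_cases hx : df f x = 0
      · obtain ⟨R, h1, h2, h3⟩ := h x hx
        exact ⟨R, h1, h2, fun _ => h3⟩
      · obtain ⟨R, h2, h1⟩ := exists_pm o x
        exact ⟨R, h1, h2, fun h => (hx h).elim⟩
    obtain ⟨U, h0, hU, -⟩ := exists_pc hR univ_mem
    have hd := dd (hU.ch.comp_sm h0 hf)
    have hz : ∀ z ∈ U, df f (R z) = 0 ↔ fderiv ℝ (f ∘ R) z = 0 := fun z hz =>
      hU.ch.df_eq_zero hz ((hf _).mdifferentiableAt (by simp))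
    have h2 : ∀ᶠ z in 𝓝 (0 : ℂ), fderiv ℝ (f ∘ R) z = 0 → z = 0 := by
      by_cases hx : df f (R 0) = 0
      · obtain ⟨K, -, hK⟩ := LinearMap.exists_antilipschitzWith
          (fderiv ℝ (fderiv ℝ (f ∘ R)) 0).toLinearMap (LinearMap.ker_eq_bot'.2 (h1 hx))
        have := hd.hasFDerivAt.eventually_ne (c := 0) ⟨K, hK⟩
        rw [eventually_nhdsWithin_iff] at this
        filter_upwards [this] with z h3 h4
        by_contra h5
        exact h3 h5 h4
      · filter_upwards [hd.continuousAt.eventually_ne (mt (hz 0 h0).2 hx)] with z h3 h4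
        exact (h3 h4).elim
    filter_upwards [hU.ch.image_nhds h0 (h2.and (hU.op.mem_nhds h0))]
    rintro _ ⟨z, h3, rfl⟩ h4
    rw [h3.1 ((hz z h3.2).1 h4)]
  obtain ⟨t, -, ht⟩ := isCompact_univ.elim_nhds_subcover _ fun x _ => key x
  refine t.finite_toSet.subset fun y hy => ?_
  obtain ⟨x, hx, h1⟩ := mem_iUnion₂.1 (ht (mem_univ y))
  rwa [h1 hy]

end Crest.Agent.X212.Mor94
end
end

-- ▼ part X212/Mor94/Noc
section

/-!
# Row 212, PERF-NOC (helper94): saddle connections are removed, from the top down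
-/

set_option autoImplicit false
set_option linter.unusedSectionVars false
noncomputable section
open Set Filter Topology Function Metric
open scoped ContDiff Manifold

namespace Crest.Agent.X212.Mor94
open Prf6 Flo26

variable {M : Type*} [TopologicalSpace M] [ChartedSpace ℂ M] [IsManifold IC ∞ M] [T2Space M]
  [CompactSpace M] {o : Or M} {p q x : M}

/-- the forward orbit of `x` does not converge to a saddle -/
def Fr (m : Mo o) (x : M) : Prop :=
  ∀ q ∈ m.C, m.a q ≠ m.b q → ¬ Tendsto (fun t => fl m.v t x) atTop (𝓝 q)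

/-- the unstable branches of `p` do not converge to a saddle -/
def Gd (m : Mo o) (p : M) : Prop := ∀ σ : ℝ, (σ = 1 ∨ σ = -1) → Fr m (m.Q p ⟨σ / 2, 0⟩)

theorem Fr.fl {m : Mo o} (h : Fr m x) (t : ℝ) : Fr m (fl m.v t x) := fun q hq hs ht =>
  h q hq hs (by
    have := ht.comp (tendsto_atTop_add_const_right atTop (-t) tendsto_id)
    refine this.congr fun s => ?_
    simp only [comp, id, ← fl_add']
    rw [neg_add_cancel_right])

theorem Fr.of_fl {m : Mo o} {t : ℝ} (h : Fr m (Flo26.fl m.v t x)) : Fr m x := by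
  have := h.fl (-t)
  rwa [← fl_add', neg_add_cancel, fl_zero m.smv] at this

theorem noc_of_gd {m : Mo o} (h : ∀ p ∈ m.C, m.a p ≠ m.b p → Gd m p) : m.Noc := by
  rintro p hp q hq hs hs' x hx ⟨h1, h2⟩
  rcases unstable m hp hs h1 with rfl | ⟨σ, hσ, t, rfl⟩
  · exact hx hp
  · exact (h p hp hs σ hσ).fl t q hq hs' h2

/-- above the perturbation the forward orbits are unchanged -/
theorem Fr.congr {m m' : Mo o} (hf : m'.f = m.f) (hC : m'.C = m.C) (ha : m'.a = m.a)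
    (hb : m'.b = m.b) {k : ℝ} (hk : ∀ y, k < m.f y → m'.v y = m.v y) (hx : k < m.f x)
    (h : Fr m x) : Fr m' x := by
  intro q hq hs ht
  rw [hC] at hq
  rw [ha, hb] at hs
  refine h q hq hs (ht.congr' ?_)
  filter_upwards [eventually_ge_atTop (0 : ℝ)] with T hT
  refine ((fl_congr m'.smv m.smv (U := {y | k < m.f y})
    (isOpen_lt continuous_const m.smf.continuous) hk (cpl m' (T, x)) fun s hs => ?_).2).symm
  rw [uIcc_of_le hT] at hs
  have := f_le m' hs.1 x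
  rw [hf] at this
  exact hx.trans_le this

/-- the level curve through the exit points -/
def lvP (σ y : ℝ) : ℂ := ⟨σ * √(1 / 3 + y ^ 2), σ * y⟩

theorem sq_sqrt' (y : ℝ) : √(1 / 3 + y ^ 2) ^ 2 = 1 / 3 + y ^ 2 := Real.sq_sqrt (by positivity)

theorem lvP_sq {σ : ℝ} (hσ : σ = 1 ∨ σ = -1) (y : ℝ) :
    (lvP σ y).re ^ 2 = 1 / 3 + y ^ 2 ∧ (lvP σ y).im ^ 2 = y ^ 2 := by
  rcases hσ with rfl | rfl <;> simp [lvP] <;> simpa using sq_sqrt' y

theorem lvP_norm {σ y : ℝ} (hσ : σ = 1 ∨ σ = -1) (hy : y ∈ Ioo (0 : ℝ) (1 / 16)) : ‖lvP σ y‖ < 1 := by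
  rw [norm_lt_iff one_pos, (lvP_sq hσ y).1, (lvP_sq hσ y).2]
  nlinarith [hy.1, hy.2]

theorem f_lvP (m : Mo o) (hp : p ∈ m.C) (hs : m.a p ≠ m.b p) {σ y : ℝ} (hσ : σ = 1 ∨ σ = -1)
    (hy : y ∈ Ioo (0 : ℝ) (1 / 16)) : m.f (m.Q p (lvP σ y)) = m.f p + m.c p / 3 := by
  rw [m.fQ p hp _ (lvP_norm hσ hy), (sad m hp hs).1, (sad m hp hs).2, (lvP_sq hσ y).1,
    (lvP_sq hσ y).2]
  ring

/-- all but finitely many exit points are free -/
theorem exists_exit (m : Mo o) (hp : p ∈ m.C) (hs : m.a p ≠ m.b p) {δ : ℝ} (hδ : 0 < δ) :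
    ∃ y ∈ Ioo (0 : ℝ) (1 / 16), y < δ ∧ ∀ σ : ℝ, (σ = 1 ∨ σ = -1) → Fr m (m.Q p (lvP σ y)) := by
  let S : Set ℝ := {1, -1}
  have hS : S.Finite := toFinite _
  let bad : M → ℝ → ℝ → Set ℝ := fun q σ τ =>
    {y | y ∈ Ioo (0 : ℝ) (1 / 16) ∧ ∃ t, fl m.v t (m.Q q ⟨0, τ / 2⟩) = m.Q p (lvP σ y)}
  have hb : ∀ q, ∀ σ ∈ S, ∀ τ, (bad q σ τ).Finite := fun q σ hσ τ => by
    refine Subsingleton.finite ?_
    rintro y ⟨hy, t, ht⟩ y' ⟨hy', t', ht'⟩
    have h1 := eq_of_f_eq m (x := m.Q q ⟨0, τ / 2⟩) (s := t) (t := t') (by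
      rw [ht, ht', f_lvP m hp hs hσ hy, f_lvP m hp hs hσ hy'])
    rw [ht, ht'] at h1
    have h2 := congrArg Complex.im (m.inj p hp (mem_ball_zero_iff.2 (lvP_norm hσ hy))
      (mem_ball_zero_iff.2 (lvP_norm hσ hy')) h1)
    rcases hσ with rfl | rfl <;> simpa [lvP] using h2
  have hfin : (⋃ q ∈ (m.C : Set M), ⋃ σ ∈ S, ⋃ τ ∈ S, bad q σ τ).Finite :=
    m.C.finite_toSet.biUnion fun q _ => hS.biUnion fun σ hσ => hS.biUnion fun τ _ => hb q σ hσ τ
  obtain ⟨y, hy, hy'⟩ := ((Ioo_infinite (a := (0 : ℝ)) (b := min (1 / 16) δ)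
    (lt_min (by norm_num) hδ)).sdiff hfin).nonempty
  have hy0 : y ∈ Ioo (0 : ℝ) (1 / 16) := ⟨hy.1, hy.2.trans_le (min_le_left _ _)⟩
  refine ⟨y, hy0, hy.2.trans_le (min_le_right _ _), fun σ hσ q hq hsq ht => ?_⟩
  rcases stable m hq hsq ht with h | ⟨τ, hτ, h⟩
  · have h1 : m.Q p (lvP σ y) ∈ m.Q q '' ball 0 1 :=
      ⟨0, mem_ball_self one_pos, (m.ctr q hq).trans h.symm⟩
    have h2 : m.Q p (lvP σ y) ∈ m.Q p '' ball 0 1 :=
      ⟨_, mem_ball_zero_iff.2 (lvP_norm hσ hy0), rfl⟩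
    by_cases hpq : p = q
    · subst hpq
      have h3 := f_lvP m hp hs hσ hy0
      rw [h] at h3
      linarith [m.cpos p hp]
    · exact disjoint_left.1 (m.dis p hp q hq hpq) h2 h1
  · exact hy' (mem_iUnion₂.2 ⟨q, hq, mem_iUnion₂.2 ⟨σ, hσ, mem_iUnion₂.2 ⟨τ, hτ, hy0, h⟩⟩⟩)

/-- the perturbation at one saddle -/
theorem step (m : Mo o) (hp : p ∈ m.C) (hs : m.a p ≠ m.b p)
    (hc : ∀ q ∈ m.C, q ≠ p → m.c p < m.c q) :
    ∃ m' : Mo o, m'.f = m.f ∧ m'.C = m.C ∧ m'.a = m.a ∧ m'.b = m.b ∧ Gd m' p ∧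
      ∀ q ∈ m.C, q ≠ p → m.a q ≠ m.b q → m.f p ≤ m.f q → Gd m q → Gd m' q := by
  obtain ⟨C, hC, hCb⟩ := dB_bd
  obtain ⟨y, hy, hyδ, hfree⟩ := exists_exit m hp hs (δ := 1 / (16 * C)) (by positivity)
  set X := √(1 / 3 + y ^ 2) with hX
  have hX2 : X ^ 2 = 1 / 3 + y ^ 2 := sq_sqrt' y
  have hX0 : 0 < X := Real.sqrt_pos.2 (by positivity)
  have hX1 : X < 1 := by nlinarith [hy.1, hy.2]
  have hX3 : 1 / 2 < X := by nlinarith [hy.1, hy.2]
  set ε := X * y with hε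
  have hε0 : 0 < ε := mul_pos hX0 hy.1
  have hε1 : ε < y := by nlinarith [hy.1]
  have hεC : ε * C < 1 / 16 := by
    rw [lt_div_iff₀ (by positivity)] at hyδ
    nlinarith
  have hε2 : |ε| ≤ 1 / 16 := by rw [abs_of_pos hε0]; linarith [hy.2]
  have hch := ch m hp
  obtain ⟨V, hV, hVQ, hV0⟩ := hch.exists_smV (Wp_sm ε) K0_cp K0_sub (Wp_zero ε)
  obtain ⟨ha, hb⟩ := sad m hp hs
  have hc0 := m.cpos p hp
  let v : (x : M) → TangentSpace IC x := fun x => m.v x + V x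
  have hvQ : ∀ z ∈ ball (0 : ℂ) 1, v (m.Q p z) = dQ (m.Q p) z (lv 1 (-1) z + Wp ε z) :=
    fun z hz => by
      have := vQ m hp z hz
      rw [ha, hb] at this
      rw [dQ_add, ← hVQ z hz, ← this]
  have hv0 : ∀ x ∉ m.Q p '' K0, v x = m.v x := fun x hx => by simp only [v, hV0 x hx, add_zero]
  have hup : ∀ x ∉ m.C, 0 < df m.f x (v x) := fun x hx => by
    by_cases h : x ∈ m.Q p '' K0
    · obtain ⟨z, hz, rfl⟩ := h
      rw [hvQ z (K0_sub hz), df_Q m hp (K0_sub hz), ha, hb]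
      refine mul_pos hc0 ?_
      have h1 : |z.im| ≤ 1 / 2 := abs_le_of_sq_le_sq' (by linarith [hz.2.2]) (by norm_num) |> abs_le.2
      have h2 : |1 - B z.im| ≤ 1 := abs_le.2 ⟨by linarith [B_le z.im], by linarith [B_nonneg z.im]⟩
      have h3 : |z.im * (ε * deriv B z.re * (1 - B z.im))| ≤ 1 / 2 * (ε * C * 1) := by
        rw [abs_mul, abs_mul, abs_mul, abs_of_pos hε0]
        gcongr
        exact hCb _
      simp only [lv, Wp, Complex.add_re, Complex.add_im]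
      nlinarith [(abs_le.1 h3).2, hz.1, sq_nonneg z.im]
    · rw [hv0 x h]; exact m.up x hx
  obtain ⟨m', e1, e2, e3, e4, e5, e6, e7, -⟩ := exists_upd m hp (l := 1 / 4) (by norm_num)
    (by norm_num) (v := v) (m.smv.add hV) hup
    (fun q hq hqp z hz => hv0 _ fun h => disjoint_left.1 (m.dis q hq p hp hqp)
      ⟨z, mem_ball_zero_iff.2 hz, rfl⟩ (image_mono K0_sub h))
    (fun z hz => hv0 _ (by
      rintro ⟨w, hw, he⟩
      have h1 := m.inj p hp (K0_sub hw) (mem_ball_zero_iff.2 (by linarith)) he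
      subst h1
      rw [norm_lt_iff (by norm_num)] at hz
      nlinarith [hw.1, sq_nonneg w.im]))
  have hk : ∀ x, m.f p + m.c p / 4 < m.f x → m'.v x = m.v x := fun x hx => by
    rw [e2]
    refine hv0 x ?_
    rintro ⟨z, hz, rfl⟩
    rw [m.fQ p hp z (mem_ball_zero_iff.1 (K0_sub hz)), ha, hb] at hx
    nlinarith [hz.2.1, sq_nonneg z.im]
  refine ⟨m', e1, e3, e4, e5, fun σ hσ => ?_, fun q hq hqp hsq hf hG σ hσ => ?_⟩
  · have hσ2 : σ ^ 2 = 1 := by rcases hσ with rfl | rfl <;> norm_num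
    have hσ0 : σ / 8 ≠ 0 := by rcases hσ with rfl | rfl <;> norm_num
    have hT : 0 ≤ Real.log (8 * X) := Real.log_nonneg (by linarith)
    have hE : Real.exp (Real.log (8 * X)) = 8 * X := Real.exp_log (by linarith)
    have h1 := hch.fl_curve m'.smv (W := fun z => lv 1 (-1) z + Wp ε z) (by rw [e2]; exact hvQ)
      (gam_deriv hε2 hσ0) (T := Real.log (8 * X)) fun s hs => ?_
    · have h2 : gam ε (σ / 8) 0 = (1 / 4 : ℝ) • (⟨σ / 2, 0⟩ : ℂ) := by
        apply Complex.ext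
        · simp [gam]; ring
        · have : B (σ / 8) = 0 := B_zero (by rw [div_pow, hσ2]; norm_num)
          simp [gam, this]
      have h3 : gam ε (σ / 8) (Real.log (8 * X)) = lvP σ y := by
        have h4 : σ / 8 * (8 * X) = σ * X := by ring
        have h5 : B (σ * X) = 1 := B_one (by rw [mul_pow, hσ2]; nlinarith)
        apply Complex.ext
        · simp only [gam, lvP, hE, h4, ← hX]
        · simp only [gam, lvP, hE, h4, h5, hε]
          rcases hσ with rfl | rfl <;> field_simp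
      rw [h2, h3, ← e7] at h1
      refine Fr.of_fl (t := Real.log (8 * X)) ?_
      rw [h1]
      refine (hfree σ hσ).congr e1 e3 e4 e5 hk ?_
      rw [f_lvP m hp hs hσ hy]
      linarith
    · rw [uIcc_of_le hT] at hs
      rw [mem_ball_zero_iff, norm_lt_iff one_pos]
      have h2 : Real.exp s ≤ 8 * X := hE ▸ Real.exp_le_exp.2 hs.2
      have h3 : Real.exp s ^ 2 ≤ (8 * X) ^ 2 := pow_le_pow_left₀ (Real.exp_pos s).le h2 2
      have h4 := gam_im hε2 (σ / 8 * Real.exp s)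
      simp only [gam]
      rw [mul_pow, div_pow σ, hσ2]
      nlinarith [hy.1, hy.2]
  · rw [(e6 q hqp).1]
    refine (hG σ hσ).congr e1 e3 e4 e5 hk ?_
    have hσ2 : σ ^ 2 = 1 := by rcases hσ with rfl | rfl <;> norm_num
    rw [m.fQ q hq _ (by rw [norm_lt_iff one_pos, div_pow, hσ2]; norm_num), (sad m hq hsq).1,
      div_pow, hσ2]
    have := hc q hq hqp
    simp only
    nlinarith

/-- shrinking the chart at `p` -/
theorem shrink (m : Mo o) (hp : p ∈ m.C) :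
    ∃ m' : Mo o, m'.f = m.f ∧ m'.C = m.C ∧ m'.a = m.a ∧ m'.b = m.b ∧
      (∀ q ∈ m.C, q ≠ p → m'.c p < m'.c q) ∧ ∀ q ≠ p, Gd m q → Gd m' q := by
  have h1 : ∀ᶠ l : ℝ in 𝓝 0, ∀ q ∈ m.C, l ^ 2 * m.c p < m.c q := by
    refine (eventually_all_finset _).2 fun q hq => ?_
    have : ContinuousAt (fun l : ℝ => l ^ 2 * m.c p) 0 := by fun_prop
    exact this.eventually_lt continuousAt_const (by simpa using m.cpos q hq)
  obtain ⟨l, hl, hl0, hl1⟩ := ((h1.filter_mono nhdsWithin_le_nhds).and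
    (Ioc_mem_nhdsGT (zero_lt_one' ℝ))).exists
  obtain ⟨m', e1, e2, e3, e4, e5, e6, -, e8⟩ := exists_upd m hp hl0 hl1 m.smv m.up
    (fun _ _ _ _ _ => rfl) fun _ _ => rfl
  refine ⟨m', e1, e3, e4, e5, fun q hq hqp => ?_, fun q hq hG σ hσ r hr hs => ?_⟩
  · rw [e8, (e6 q hqp).2]; exact hl q hq
  · rw [e2, (e6 q hq).1]
    rw [e3] at hr
    rw [e4, e5] at hs
    exact hG σ hσ r hr hs

theorem exists_noc (m : Mo o) : ∃ m' : Mo o, m'.Noc := by
  classical
  have key : ∀ S : Finset M, S ⊆ m.C → ∃ m' : Mo o, m'.f = m.f ∧ m'.C = m.C ∧ m'.a = m.a ∧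
      m'.b = m.b ∧ ∀ p ∈ S, m.a p ≠ m.b p → Gd m' p := fun S => by
    refine Finset.induction_on_min_value m.f S (fun _ => ⟨m, rfl, rfl, rfl, rfl, by simp⟩) ?_
    intro p S hpS hmin ih hsub
    obtain ⟨m1, e1, e2, e3, e4, h1⟩ := ih ((Finset.subset_insert _ _).trans hsub)
    have hp : p ∈ m.C := hsub (Finset.mem_insert_self _ _)
    by_cases hs : m.a p = m.b p
    · refine ⟨m1, e1, e2, e3, e4, fun q hq hsq => ?_⟩
      rcases Finset.mem_insert.1 hq with rfl | hq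
      · exact (hsq hs).elim
      · exact h1 q hq hsq
    obtain ⟨m2, f1, f2, f3, f4, f5, f6⟩ := shrink m1 (e2 ▸ hp)
    have g2 : m2.C = m.C := f2.trans e2
    have g3 : m2.a = m.a := f3.trans e3
    have g4 : m2.b = m.b := f4.trans e4
    obtain ⟨m3, k1, k2, k3, k4, k5, k6⟩ := step m2 (g2 ▸ hp) (by rwa [g3, g4])
      fun q hq => f5 q (f2 ▸ hq)
    refine ⟨m3, k1.trans (f1.trans e1), k2.trans g2, k3.trans g3, k4.trans g4, fun q hq hsq => ?_⟩
    rcases Finset.mem_insert.1 hq with rfl | hq'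
    · exact k5
    · have hqp : q ≠ p := fun h => hpS (h ▸ hq')
      exact k6 q (g2 ▸ hsub hq) hqp (by rwa [g3, g4]) (by rw [f1, e1]; exact hmin q hq')
        (f6 q hqp (h1 q hq' hsq))
  obtain ⟨m', -, e2, e3, e4, h⟩ := key m.C subset_rfl
  exact ⟨m', noc_of_gd fun p hp hs => h p (e2 ▸ hp) (by rwa [← e3, ← e4])⟩

/-- **NOC** -/
theorem noc : Prf6.Noc := fun _ ⟨m⟩ => exists_noc m

end Crest.Agent.X212.Mor94
end
end

-- ▼ part X212/Mor94/Main

/-!
# Row 212, PERF-MORSE (helper94): existence of `Mo`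
-/

set_option autoImplicit false
set_option linter.unusedSectionVars false
noncomputable section
open Set Filter Topology Function Metric
open scoped ContDiff Manifold

namespace Crest.Agent.X212.Mor94
open Prf6 Flo26

variable {M : Type*} [TopologicalSpace M] [ChartedSpace ℂ M] [IsManifold IC ∞ M] [T2Space M]
  [CompactSpace M]

/-- the local data at a critical point -/
structure LD (o : Or M) (f : M → ℝ) (W : Set M) (p : M) (Q : ℂ → M) (a b c : ℝ) (G : M → ℝ) :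
    Prop where
  ctr : Q 0 = p
  pc : PC o Q (ball 0 3)
  map : MapsTo Q (ball 0 3) W
  cpos : 0 < c
  ab : (a = 1 ∧ b = 1) ∨ (a = -1 ∧ b = -1) ∨ (a = 1 ∧ b = -1)
  sm : ContMDiff IC IR ∞ G
  off : ∀ y ∉ Q '' closedBall 0 2, G y = 0
  quad : ∀ z : ℂ, ‖z‖ < 1 → f (Q z) + G (Q z) = f p + c * (a * z.re ^ 2 + b * z.im ^ 2)
  up : ∀ z : ℂ, ‖z‖ < 3 → z ≠ 0 → 0 < fderiv ℝ (fun z => f (Q z) + G (Q z)) z (lv a b z)

theorem b23 : closedBall (0 : ℂ) 2 ⊆ ball 0 3 := closedBall_subset_ball (by norm_num)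

theorem exists_LD {o : Or M} {f : M → ℝ} (hf : ContMDiff IC IR ∞ f) {R : ℂ → M}
    (hR : Pm oC o R 0) (h0 : df f (R 0) = 0)
    (hn : ∀ v, fderiv ℝ (fderiv ℝ (f ∘ R)) 0 v = 0 → v = 0) {W : Set M} (hW : W ∈ 𝓝 (R 0)) :
    ∃ Q a b c G, LD o f W (R 0) Q a b c G := by
  obtain ⟨U, hU0, hU, hm⟩ := exists_pc hR hW
  obtain ⟨T, a, b, c, h, h1, h2, h3, h4, h5, h6, h7, h8⟩ := loc (g := f ∘ R) hU.op hU0
    (fun z hz => (hU.ch.comp_sm hz hf).contDiffWithinAt)
    ((hU.ch.df_eq_zero hU0 ((hf _).mdifferentiableAt (by simp))).1 h0) hn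
  have hQ := hU.comp (pm_lin T h1) T.injective isOpen_ball h4
  obtain ⟨G, g1, g2, g3⟩ := hQ.ch.exists_fun h5 (isCompact_closedBall 0 2) b23 fun z _ => h6 z
  refine ⟨R ∘ T, a, b, c, G, by simp, hQ, hm.comp h4, h2, h3, g1, g3, fun z hz => ?_,
    fun z hz hz0 => ?_⟩
  · rw [g2 z (mem_ball_zero_iff.2 (by linarith))]
    exact h7 z hz
  · refine (h8 z hz hz0).trans_eq (DFunLike.congr_fun (Filter.EventuallyEq.fderiv_eq ?_) _)
    filter_upwards [isOpen_ball.mem_nhds (mem_ball_zero_iff.2 hz)] with y hy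
    rw [g2 y hy]; rfl

theorem exists_mo [Nonempty M] (o : Or M) : Nonempty (Mo o) := by
  classical
  obtain ⟨f0, hf0, hnd⟩ := exists_nd o
  have hfin := finite_crit hf0 hnd
  obtain ⟨W, hW, hdis⟩ := hfin.t2_separation
  let C := hfin.toFinset
  have hC : ∀ p, p ∈ C ↔ df f0 p = 0 := fun p => hfin.mem_toFinset
  have ex : ∀ p ∈ C, ∃ Q a b c G, LD o f0 (W p) p Q a b c G := fun p hp => by
    obtain ⟨R, rfl, h1, h2⟩ := hnd p ((hC p).1 hp)
    exact exists_LD hf0 h1 ((hC _).1 hp) h2 ((hW _).2.mem_nhds (hW _).1)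
  choose! Q a b c G hL using ex
  have sep : ∀ p ∈ C, ∀ q ∈ C, ∀ z ∈ ball (0 : ℂ) 3, ∀ w ∈ ball (0 : ℂ) 3, Q p z = Q q w → p = q :=
    fun p hp q hq z hz w hw h => by
      by_contra hpq
      exact disjoint_left.1 (hdis ((hC p).1 hp) ((hC q).1 hq) hpq) ((hL p hp).map hz)
        (h ▸ (hL q hq).map hw)
  let f : M → ℝ := fun x => f0 x + ∑ p ∈ C, G p x
  have hf : ContMDiff IC IR ∞ f := hf0.add (contMDiff_finsetSum fun p hp => (hL p hp).sm)
  have md : ∀ x, MDifferentiableAt IC IR f x := fun x => (hf x).mdifferentiableAt (by simp)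
  have fQ : ∀ p ∈ C, ∀ z ∈ ball (0 : ℂ) 3, f (Q p z) = f0 (Q p z) + G p (Q p z) :=
    fun p hp z hz => by
      simp only [f]
      rw [Finset.sum_eq_single_of_mem p hp fun q hq hqp => (hL q hq).off _ ?_]
      rintro ⟨w, hw, h⟩
      exact hqp (sep q hq p hp w (b23 hw) z hz h)
  have upQ : ∀ p ∈ C, ∀ z ∈ ball (0 : ℂ) 3, Q p z ∉ C →
      0 < df f (Q p z) (dQ (Q p) z (lv (a p) (b p) z)) := fun p hp z hz hn => by
    rw [(hL p hp).pc.ch.df_dQ hz (md _)]
    refine ((hL p hp).up z (mem_ball_zero_iff.1 hz) fun h => hn ?_).trans_eq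
      (DFunLike.congr_fun (Filter.EventuallyEq.fderiv_eq ?_) _)
    · rw [h, (hL p hp).ctr]; exact hp
    · filter_upwards [isOpen_ball.mem_nhds hz] with y hy using (fQ p hp y hy).symm
  have hO : IsOpen (⋃ p ∈ C, Q p '' closedBall 0 2)ᶜ :=
    (C.isCompact_biUnion fun p hp =>
      (hL p hp).pc.ch.isCompact_image (isCompact_closedBall 0 2) b23).isClosed.isOpen_compl
  let t : (x : M) → Set (TangentSpace IC x) := fun x => {u | (x ∉ C → 0 < df f x u) ∧
    ∀ p ∈ C, ∀ z : ℂ, ‖z‖ < 1 → Q p z = x → (u : ℂ) = dQ (Q p) z (lv (a p) (b p) z)}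
  have ht : ∀ x, Convex ℝ (t x) := fun x u hu w hw α β hα hβ hs => by
    refine ⟨fun hx => ?_, fun p hp z hz h => ?_⟩
    · rw [map_add, map_smul, map_smul, smul_eq_mul, smul_eq_mul]
      have h1 := hu.1 hx
      have h2 := hw.1 hx
      rcases hα.eq_or_lt with rfl | h
      · rw [zero_add] at hs; rw [hs]; linarith
      · nlinarith [mul_pos h h1, mul_nonneg hβ h2.le]
    · subst h
      rw [hu.2 p hp z hz rfl, hw.2 p hp z hz rfl, ← add_smul, hs, one_smul]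
  obtain ⟨v, hv⟩ := exists_contMDiffSection_forall_mem_convex_of_local (n := ⊤) (F_fiber := ℂ) IC
    (TangentSpace IC) t ht fun x => by
    by_cases hx : ∃ p ∈ C, x ∈ Q p '' ball 0 3
    · obtain ⟨p, hp, hx⟩ := hx
      have hc := (hL p hp).pc.ch
      obtain ⟨V, h1, h2, -⟩ := hc.exists_vec (lv_sm (a p) (b p))
      refine ⟨_, (hc.isOpen_image isOpen_ball subset_rfl).mem_nhds hx, V, h1, ?_⟩
      rintro _ ⟨z, hz, rfl⟩
      rw [h2 z hz]
      refine ⟨upQ p hp z hz, fun q hq w hw h => ?_⟩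
      have hw' : w ∈ ball (0 : ℂ) 3 := mem_ball_zero_iff.2 (by linarith)
      obtain rfl := sep q hq p hp w hw' z hz h
      obtain rfl := hc.inj hw' hz h
      rfl
    · have hx2 : x ∈ (⋃ p ∈ C, Q p '' closedBall 0 2)ᶜ := fun h => by
        obtain ⟨p, hp, h⟩ := mem_iUnion₂.1 h
        exact hx ⟨p, hp, image_mono b23 h⟩
      have hxC : x ∉ C := fun h => hx ⟨x, h, 0, mem_ball_self (by norm_num), (hL x h).ctr⟩
      have h1 : df f x ≠ 0 := by
        have : f =ᶠ[𝓝 x] f0 := by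
          filter_upwards [hO.mem_nhds hx2] with y hy
          simp only [f]
          rw [Finset.sum_eq_zero fun p hp => (hL p hp).off y fun h => hy (mem_iUnion₂.2 ⟨p, hp, h⟩),
            add_zero]
        rw [df, this.mfderiv_eq]
        exact fun h => hxC ((hC x).2 h)
      obtain ⟨R, hR, rfl⟩ := exists_pm o x
      obtain ⟨U, h0, hU, hm⟩ := exists_pc hR (hO.mem_nhds hx2)
      have h2 := mt (hU.ch.df_eq_zero h0 (md _)).2 h1
      obtain ⟨w, hw⟩ : ∃ w, 0 < fderiv ℝ (f ∘ R) 0 w := by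
        by_contra h
        push Not at h
        refine h2 (ContinuousLinearMap.ext fun w => le_antisymm (h w) ?_)
        have := h (-w)
        rw [map_neg] at this
        simpa using this
      have h3 : ∀ᶠ z in 𝓝 (0 : ℂ), 0 < fderiv ℝ (f ∘ R) z w :=
        continuousAt_const.eventually_lt
          ((dd (hU.ch.comp_sm h0 hf)).continuousAt.clm_apply continuousAt_const) hw
      obtain ⟨U', k1, k2, k3⟩ := _root_.eventually_nhds_iff.1 (h3.and (hU.op.mem_nhds h0))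
      have hc := hU.ch.mono k2 fun z hz => (k1 z hz).2
      obtain ⟨V, e1, e2, -⟩ := hc.exists_vec (contDiff_const (c := w))
      refine ⟨_, hc.image_nhds k3 (k2.mem_nhds k3), V, e1, ?_⟩
      rintro _ ⟨z, hz, rfl⟩
      rw [e2 z hz]
      refine ⟨fun _ => ?_, fun q hq y hy h => (hm (k1 z hz).2 ?_).elim⟩
      · rw [hc.df_dQ hz (md _)]; exact (k1 z hz).1
      · exact mem_iUnion₂.2 ⟨q, hq, y, mem_closedBall_zero_iff.2 (by linarith), h⟩
  have b13 : ball (0 : ℂ) 1 ⊆ ball 0 3 := ball_subset_ball (by norm_num)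
  refine ⟨⟨f, v, C, Q, a, b, c, fun p hp => (hL p hp).cpos, hf, v.contMDiff,
    fun x hx => (hv x).1 hx, fun p hp => (hL p hp).ab,
    fun p hp z hz => (hL p hp).pc.pm z (b13 (mem_ball_zero_iff.2 hz)),
    fun p hp => (hL p hp).pc.inj.mono b13, fun p hp => (hL p hp).ctr, fun p hp q hq hpq => ?_,
    fun p hp z hz => ?_, fun p hp z hz => (hv _).2 p hp z hz rfl⟩⟩
  · rw [disjoint_left]
    rintro _ ⟨z, hz, rfl⟩ ⟨w, hw, h⟩
    exact hpq (sep p hp q hq z (b13 hz) w (b13 hw) h.symm)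
  · have h1 := fQ p hp 0 (mem_ball_self (by norm_num))
    rw [(hL p hp).quad 0 (by simp), (hL p hp).ctr] at h1
    rw [fQ p hp z (b13 (mem_ball_zero_iff.2 hz)), (hL p hp).quad z hz, h1]
    simp

/-- **MORSE** -/
theorem morse : Prf6.Morse := fun X => exists_mo X.o

end Crest.Agent.X212.Mor94
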